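import Vale.Agent.P058.Malcev

/-!
# P058, part 3: power endomorphisms and the passage down the lower central series
-/

namespace Vale.Agent.P058

open Matrix
open scoped commutatorElement

variable {ι : Type} {d : ℕ} {H : Type} [Group H] {a : ι → Fin d → ℝ} {g : ℝ → H}

/-- Short name for the lower central series. -/
abbrev lcs (H : Type) [Group H] (j : ℕ) : Subgroup H := (⊤ : Subgroup H).lowerCentralSeries j

lemma lcs_comm_mem {j : ℕ} {x : H} (hx : x ∈ lcs H j) (y : H) : ⁅x, y⁆ ∈ lcs H (j + 1) :=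
  Subgroup.commutator_mem_commutator hx (Subgroup.mem_top y)

lemma lcs_central {j : ℕ} {x : H} (hx : x ∈ lcs H j) (q : H ⧸ lcs H (j + 1)) :
    Commute (QuotientGroup.mk' (lcs H (j + 1)) x) q := by
  obtain ⟨y, rfl⟩ := QuotientGroup.mk'_surjective _ q
  rw [← commutatorElement_eq_one_iff_commute, ← map_commutatorElement]
  exact (QuotientGroup.eq_one_iff _).mpr (lcs_comm_mem hx y)

lemma lcs_pow_zero (hgen : Subgroup.closure (Set.range g) = ⊤) (φ : H →* H) (k : ℕ)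
    (hφ : ∀ t, φ (g t) = g t ^ k) (x : H) :
    QuotientGroup.mk' (lcs H 1) (φ x) = QuotientGroup.mk' (lcs H 1) x ^ k := by
  have hh : x ∈ Subgroup.closure (Set.range g) := hgen ▸ Subgroup.mem_top x
  induction hh using Subgroup.closure_induction with
  | mem x hx => obtain ⟨t, rfl⟩ := hx; rw [hφ, map_pow]
  | one => rw [map_one, map_one, one_pow]
  | mul x y _ _ hx hy =>
    rw [map_mul, map_mul, hx, hy, map_mul,
      (lcs_central (j := 0) (Subgroup.mem_top x) _).mul_pow]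
  | inv x _ hx => rw [map_inv, map_inv, hx, map_inv, inv_pow]

lemma lcs_pow (hgen : Subgroup.closure (Set.range g) = ⊤) (φ : H →* H) (k : ℕ)
    (hφ : ∀ t, φ (g t) = g t ^ k) (j : ℕ) (x : H) (hx : x ∈ lcs H j) :
    QuotientGroup.mk' (lcs H (j + 1)) (φ x) = QuotientGroup.mk' (lcs H (j + 1)) x ^ (k ^ (j + 1)) := by
  induction j generalizing x with
  | zero => simpa using lcs_pow_zero hgen φ k hφ x
  | succ j ih =>
    set π := QuotientGroup.mk' (lcs H (j + 1 + 1)) with hπ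
    have cen : ∀ z ∈ lcs H (j + 1), ∀ q, Commute (π z) q := fun z hz q => lcs_central hz q
    have mulL : ∀ x ∈ lcs H j, ∀ x' ∈ lcs H j, ∀ y,
        π ⁅x * x', y⁆ = π ⁅x, y⁆ * π ⁅x', y⁆ := by
      intro x hx x' hx' y
      have e : ⁅x * x', y⁆ = x * ⁅x', y⁆ * x⁻¹ * ⁅x, y⁆ := by
        simp only [commutatorElement_def]; group
      rw [e, map_mul, map_mul, map_mul, ← (cen _ (lcs_comm_mem hx' y) (π x)).eq, map_inv,
        mul_inv_cancel_right, (cen _ (lcs_comm_mem hx' y) _).eq]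
    have mulR : ∀ x ∈ lcs H j, ∀ y y', π ⁅x, y * y'⁆ = π ⁅x, y⁆ * π ⁅x, y'⁆ := by
      intro x hx y y'
      have e : ⁅x, y * y'⁆ = ⁅x, y⁆ * (y * ⁅x, y'⁆ * y⁻¹) := by
        simp only [commutatorElement_def]; group
      rw [e, map_mul, map_mul, map_mul, ← (cen _ (lcs_comm_mem hx y') (π y)).eq, map_inv,
        mul_inv_cancel_right]
    have powL : ∀ x ∈ lcs H j, ∀ y, ∀ m : ℕ, π ⁅x ^ m, y⁆ = π ⁅x, y⁆ ^ m := by
      intro x hx y m
      induction m with
      | zero => rw [pow_zero, pow_zero, commutatorElement_one_left, map_one]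
      | succ m ihm => rw [pow_succ, mulL _ (pow_mem hx m) _ hx, ihm, pow_succ]
    have powR : ∀ x ∈ lcs H j, ∀ y, ∀ m : ℕ, π ⁅x, y ^ m⁆ = π ⁅x, y⁆ ^ m := by
      intro x hx y m
      induction m with
      | zero => rw [pow_zero, pow_zero, commutatorElement_one_right, map_one]
      | succ m ihm => rw [pow_succ, mulR _ hx, ihm, pow_succ]
    have killR : ∀ x ∈ lcs H j, ∀ v ∈ lcs H 1, π ⁅x, v⁆ = 1 := by
      intro x hx v hv
      let χ : H →* H ⧸ lcs H (j + 1 + 1) := MonoidHom.mk' (fun y => π ⁅x, y⁆) (mulR x hx)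
      have : lcs H 1 ≤ χ.ker := by
        refine Subgroup.commutator_le.mpr fun y _ y' _ => ?_
        rw [MonoidHom.mem_ker, map_commutatorElement, commutatorElement_eq_one_iff_commute]
        exact cen _ (lcs_comm_mem hx y) _
      exact this hv
    have key : ∀ x ∈ lcs H j, ∀ y, π (φ ⁅x, y⁆) = π ⁅x, y⁆ ^ (k ^ (j + 1 + 1)) := by
      intro x hx y
      have hu : φ x * (x ^ (k ^ (j + 1)))⁻¹ ∈ lcs H (j + 1) := by
        rw [← QuotientGroup.eq_one_iff, ← QuotientGroup.mk'_apply, map_mul, ih x hx, map_inv,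
          map_pow, mul_inv_cancel]
      have hv : φ y * (y ^ k)⁻¹ ∈ lcs H 1 := by
        rw [← QuotientGroup.eq_one_iff, ← QuotientGroup.mk'_apply, map_mul,
          lcs_pow_zero hgen φ k hφ y, map_inv, map_pow, mul_inv_cancel]
      have hu' : φ x * (x ^ (k ^ (j + 1)))⁻¹ ∈ lcs H j :=
        Subgroup.lowerCentralSeries_antitone ⊤ (Nat.le_succ j) hu
      have ex : φ x = φ x * (x ^ (k ^ (j + 1)))⁻¹ * x ^ (k ^ (j + 1)) := by group
      have ey : φ y = φ y * (y ^ k)⁻¹ * y ^ k := by group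
      have h1 : π ⁅φ x * (x ^ (k ^ (j + 1)))⁻¹, φ y⁆ = 1 :=
        (QuotientGroup.eq_one_iff _).mpr (lcs_comm_mem hu _)
      rw [map_commutatorElement, ex, mulL _ hu' _ (pow_mem hx _), h1, one_mul, powL _ hx, ey,
        mulR _ hx, killR _ hx _ hv, one_mul, powR _ hx, ← pow_mul, pow_succ' k (j + 1)]
    have hx' : x ∈ Subgroup.closure {z | ∃ p ∈ lcs H j, ∃ q ∈ (⊤ : Subgroup H), ⁅p, q⁆ = z} := hx
    clear hx
    induction hx' using Subgroup.closure_induction with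
    | mem z hz => obtain ⟨p, hp, q, _, rfl⟩ := hz; exact key p hp q
    | one => rw [map_one, map_one, one_pow]
    | mul z w hz _ ihz ihw =>
      rw [map_mul, map_mul, ihz, ihw, map_mul, (cen z hz _).mul_pow]
    | inv z _ ihz => rw [map_inv, map_inv, ihz, map_inv, inv_pow]

/-- Pairs of elements, congruent modulo `N`, whose degrees differ by a scalar that is large
compared with the smaller degree. -/
def Pr (a : ι → Fin d → ℝ) (g : ℝ → H) (N : Subgroup H) : Prop :=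
  ∀ ε : ℝ, 0 < ε → ∃ (D : Deg d) (u : ℝ) (x y : ι → H), 0 < u ∧ Gam a g (D + u • 1) x ∧
    Gam a g D y ∧ D.trace ≤ ε * u ∧ ∀ i, x i * (y i)⁻¹ ∈ N

/-- The numerical part of the boosting step. -/
lemma boost_num {ε u tr κ m dd : ℝ} (hε : 0 < ε) (hu : 0 < u) (hκ : 0 < κ)
    (hm2 : 2 * κ ≤ m) (hm : (1 + 2 * dd / ε) * κ ≤ m) (htr : tr ≤ ε / 6 * u) :
    κ * (tr + u * dd) + m * tr ≤ ε * ((m - κ) * u) := by
  have h1 : (κ + m) * tr ≤ (κ + m) * (ε / 6 * u) := by
    apply mul_le_mul_of_nonneg_left htr; linarith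
  have h2 : (κ + m) * (ε / 6 * u) ≤ 3 * (m - κ) * (ε / 6 * u) := by
    apply mul_le_mul_of_nonneg_right (by linarith); positivity
  have h3 : 2 * dd * κ ≤ ε * (m - κ) := by
    have : 2 * dd / ε * κ ≤ m - κ := by linarith
    rw [div_mul_eq_mul_div, div_le_iff₀ hε] at this
    linarith
  have h4 : 2 * dd * κ * u ≤ ε * (m - κ) * u := mul_le_mul_of_nonneg_right h3 hu.le
  nlinarith

lemma Gam.pow_endo (φ : H →* H) (k : ℕ) (hφ : ∀ t, φ (g t) = g t ^ k) {D : Deg d} {x : ι → H}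
    (h : Gam a g D x) : Gam a g ((k : ℝ) • D) (fun i => φ (x i)) := by
  induction h with
  | diag h => simpa using Gam.diag (φ h)
  | letter l => exact ((Gam.letter l).pow k).of_eq rfl (by ext i; simp [hφ])
  | mul _ _ ih1 ih2 => exact (ih1.mul ih2).of_eq (smul_add _ _ _).symm (by ext i; simp)

lemma Pr.boost (hgen : Subgroup.closure (Set.range g) = ⊤)
    (hφ : ∀ k : ℕ, ∃ φ : H →* H, ∀ t, φ (g t) = g t ^ k) {j : ℕ}
    (h : Pr a g (lcs H (j + 1))) : Pr a g (lcs H (j + 1 + 1)) := by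
  intro ε hε
  obtain ⟨D, u, x, y, hu, hx, hy, hD, hxy⟩ := h (ε / 6) (by positivity)
  obtain ⟨k, hk⟩ := exists_nat_ge (2 + 2 * (d : ℝ) / ε)
  have hdε : 0 ≤ 2 * (d : ℝ) / ε := by positivity
  have hk2 : (2 : ℝ) ≤ k := by linarith
  obtain ⟨φ, hφ⟩ := hφ k
  set m : ℕ := k ^ (j + 1 + 1) with hm
  have hmk : (k : ℝ) * k ≤ m := by
    rw [hm]; push_cast
    rw [pow_succ, pow_succ]
    have : (1 : ℝ) ≤ (k : ℝ) ^ j := one_le_pow₀ (by linarith)
    nlinarith
  refine ⟨(k : ℝ) • (D + u • 1) + (m : ℝ) • D, (m - k) * u, _, _, ?_,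
    ((hy.pow_endo φ k hφ).mul (hx.pow m)).of_eq ?_ rfl, (hx.pow_endo φ k hφ).mul (hy.pow m),
    ?_, ?_⟩
  · apply mul_pos _ hu; nlinarith
  · simp only [smul_add, smul_smul, sub_mul, sub_smul]; abel
  · simp only [Matrix.trace_add, Matrix.trace_smul, Matrix.trace_one, Fintype.card_fin,
      smul_eq_mul]
    exact boost_num hε hu (by linarith) (by nlinarith) (by nlinarith) hD
  · intro i
    set π := QuotientGroup.mk' (lcs H (j + 1 + 1)) with hπ
    rw [← QuotientGroup.eq_one_iff, ← QuotientGroup.mk'_apply, ← hπ]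
    have cen : ∀ q, Commute (π (x i * (y i)⁻¹)) q := lcs_central (hxy i)
    have hp := lcs_pow hgen φ k hφ (j + 1) _ (hxy i)
    rw [← hπ, ← hm] at hp
    have e1 : π (x i) = π (x i * (y i)⁻¹) * π (y i) := by
      rw [← map_mul, inv_mul_cancel_right]
    have e2 : π (φ (x i)) = π (x i * (y i)⁻¹) ^ m * π (φ (y i)) := by
      rw [← hp, ← map_mul, ← map_mul, inv_mul_cancel_right]
    simp only [Pi.mul_apply, Pi.pow_apply, map_mul π (φ (y i) * x i ^ m), map_inv π,
      map_mul π (φ (y i)), map_mul π (φ (x i)), map_pow π]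
    rw [e2, e1, (cen _).mul_pow, ← mul_assoc, ← ((cen (π (φ (y i)))).pow_left m).eq,
      mul_inv_cancel]

lemma Pr.all (hgen : Subgroup.closure (Set.range g) = ⊤)
    (hφ : ∀ k : ℕ, ∃ φ : H →* H, ∀ t, φ (g t) = g t ^ k) (h : Pr a g (lcs H 1)) (j : ℕ) :
    Pr a g (lcs H (j + 1)) := by
  induction j with
  | zero => exact h
  | succ j ih => exact ih.boost hgen hφ

/-- An element with two very different scalar degrees, and then with all degrees
`b, 2b, …, N b`. -/
theorem exists_flexible [Fintype ι] (ha : Function.Injective a) (hg0 : g 0 = 1)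
    (hgen : Subgroup.closure (Set.range g) = ⊤)
    (hφ : ∀ k : ℕ, ∃ φ : H →* H, ∀ t, φ (g t) = g t ^ k) (h : Pr a g (lcs H 1)) (N : ℕ) :
    ∃ (b : ℝ) (β : ι → H), 0 < b ∧ ∀ m : ℕ, 1 ≤ m → m ≤ N + 1 →
      Gam a g (((m : ℝ) * b) • 1) β := by
  classical
  have hN : (0 : ℝ) < 1 / (2 * (N + 1)) := by positivity
  obtain ⟨D, u, x, y, hu, hx, hy, hD, hxy⟩ := h.all hgen hφ (Fintype.card ι) _ hN
  obtain ⟨E, U, V, hU, hV, hE, hUV⟩ := absorb ha hg0 hgen Finset.univ (fun i => x i * (y i)⁻¹)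
    (fun i => Subgroup.lowerCentralSeries_antitone ⊤ (Nat.le_succ _) (hxy i)) (by simp)
    (1 / (2 * (N + 1)) * u) (by positivity)
  have h1 : Gam a g (E + D) (U * x) := (hV.mul hy).of_eq rfl (by ext i; simp [hUV, mul_assoc])
  have h2 : Gam a g (E + (D + u • 1)) (U * x) := hU.mul hx
  obtain ⟨z, hz⟩ := h1.exists_compl
  have htr : (E + D).trace ≤ u / (N + 1) := by
    rw [Matrix.trace_add]
    have : u / (N + 1) = 1 / (2 * (N + 1)) * u + 1 / (2 * (N + 1)) * u := by field_simp; ring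
    linarith
  obtain ⟨w, hw⟩ := Gam.exists_scalar (a := a) (g := g) (sub_nonneg.mpr htr)
  have h3 : Gam a g ((u / (N + 1)) • 1) (U * x * z * w) := by
    refine ((h1.mul hz).mul hw).of_eq ?_ rfl
    rw [sub_smul]; abel
  have h4 : Gam a g ((u / (N + 1) + u) • 1) (U * x * z * w) := by
    refine ((h2.mul hz).mul hw).of_eq ?_ rfl
    rw [sub_smul, add_smul]; abel
  refine ⟨u, (U * x * z * w) ^ (N + 1), hu, fun m hm1 hm2 => ?_⟩
  obtain ⟨c, rfl⟩ : ∃ c, m = c + 1 := ⟨m - 1, by omega⟩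
  obtain ⟨e, he⟩ : ∃ e, N + 1 = c + e := ⟨N + 1 - c, by omega⟩
  have he' : (N : ℝ) + 1 = c + e := by exact_mod_cast he
  refine ((h4.pow c).mul (h3.pow e)).of_eq ?_ (by rw [← pow_add, he])
  rw [smul_smul, smul_smul, ← add_smul]
  congr 1
  push_cast
  have : (N : ℝ) + 1 ≠ 0 := by positivity
  field_simp
  rw [he']; ring

end Vale.Agent.P058
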