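import Mathlib

/-!
# P058: definitions used in the statements
-/

namespace Vale.Agent.P058

open scoped TensorProduct

/-- Euclidean space `ℝ^d`. -/
abbrev E (d : ℕ) := EuclideanSpace ℝ (Fin d)

/-- `B` is congruent to `A`: it is the image of `A` under a map preserving all pairwise
distances between points of `A`. -/
def Congruent {d D : ℕ} (A : Set (E d)) (B : Set (E D)) : Prop :=
  ∃ f : E d → E D, (∀ x ∈ A, ∀ y ∈ A, dist (f x) (f y) = dist x y) ∧ f '' A = B

/-- `A` is Ramsey: for every `r ≥ 2` there is `D ≥ 1` such that every `r`-colouring of `ℝ^D` is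
constant on a set congruent to `A`. -/
def IsRamsey {d : ℕ} (A : Finset (E d)) : Prop :=
  ∀ r : ℕ, 2 ≤ r → ∃ D : ℕ, 1 ≤ D ∧ ∀ c : E D → Fin r,
    ∃ A' : Set (E D), Congruent (A : Set (E d)) A' ∧ ∃ k : Fin r, ∀ y ∈ A', c y = k

/-- The isometries of `ℝ^n` mapping `X` onto itself act transitively on `X`. -/
def IsTransitive {n : ℕ} (X : Finset (E n)) : Prop :=
  ∀ x ∈ X, ∀ y ∈ X, ∃ g : IsometryEquiv (E n) (E n), g '' (X : Set (E n)) = X ∧ g x = y

/-- `A` is congruent to a subset of a finite transitive set. -/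
def IsSubtransitive {d : ℕ} (A : Finset (E d)) : Prop :=
  ∃ (n : ℕ) (X : Finset (E n)), IsTransitive X ∧
    ∃ B : Set (E n), B ⊆ X ∧ Congruent (A : Set (E d)) B

/-- The homogeneous coordinate vector `(1, x₁, …, x_d)`. -/
def homog {K : Type} [Field K] {d : ℕ} (x : Fin d → K) : Fin (d + 1) → K := Fin.cons 1 x

/-- `(p ⊗ 1)ᵀ P (1 ⊗ p)` for a vector `p` over `K` and a matrix `P` over the ring `K ⊗[ℚ] K`. -/
noncomputable def tensorForm {K : Type} [Field K] [Algebra ℚ K] {n : ℕ}
    (P : Matrix (Fin n) (Fin n) (K ⊗[ℚ] K)) (p : Fin n → K) : K ⊗[ℚ] K :=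
  ∑ α, ∑ β, TensorProduct.tmul ℚ (p α) (1 : K) * P α β * TensorProduct.tmul ℚ (1 : K) (p β)

/-- The tensor condition for a set `S` of points with coordinates in a field `K`: there is a
`(d+1) × (d+1)` matrix `P` over the ring `K ⊗[ℚ] K` with `(p ⊗ 1)ᵀ P (1 ⊗ p) = 0` for the
homogeneous coordinate vector `p = (1, x)` of each `x ∈ S`, whose lower right `d × d` block is
sent to the identity matrix by the multiplication map `K ⊗[ℚ] K → K`. -/
def TensorCondition {K : Type} [Field K] [Algebra ℚ K] {d : ℕ} (S : Set (Fin d → K)) : Prop :=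
  ∃ P : Matrix (Fin (d + 1)) (Fin (d + 1)) (K ⊗[ℚ] K),
    (∀ x ∈ S, tensorForm P (homog x) = 0) ∧
    ∀ α β : Fin d, LinearMap.mul' ℚ K (P α.succ β.succ) = if α = β then 1 else 0

/-- The points of `A` having coordinates in the subfield `F`, as vectors over `F`. -/
def pointsOver {d : ℕ} (A : Finset (E d)) (F : IntermediateField ℚ ℝ) : Set (Fin d → F) :=
  {x | ∃ a ∈ A, ∀ α, (x α : ℝ) = a α}

end Vale.Agent.P058
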