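import Vale.Agent.P058.Nec

/-!
# P058, part 10: the tensor condition does not depend on the field
-/

namespace Vale.Agent.P058

open scoped TensorProduct

variable {d : ℕ}

lemma exists_bilinear (F : Type) [Field F] [Algebra ℚ F] [Algebra F ℝ] (r : ℝ →ₗ[F] F) :
    ∃ B : ℝ →+ ℝ →+ F ⊗[ℚ] F,
      (∀ (f : F) s t, B (algebraMap F ℝ f * s) t = (f ⊗ₜ[ℚ] (1 : F)) * B s t) ∧
      (∀ (f : F) s t, B s (algebraMap F ℝ f * t) = ((1 : F) ⊗ₜ[ℚ] f) * B s t) ∧
      ∀ s t, LinearMap.mul' ℚ F (B s t) = r (s * t) := by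
  classical
  let b := Module.Basis.ofVectorSpace F ℝ
  let B : ℝ →+ ℝ →+ F ⊗[ℚ] F := AddMonoidHom.mk'
    (fun s => AddMonoidHom.mk' (fun t => (b.repr t).sum fun μ c => r (s * b μ) ⊗ₜ[ℚ] c)
      (fun t t' => by
        rw [map_add, Finsupp.sum_add_index']
        · simp
        · intro μ c c'; rw [TensorProduct.tmul_add]))
    (fun s s' => by
      ext t
      simp only [AddMonoidHom.mk'_apply, AddMonoidHom.add_apply, add_mul, map_add,
        TensorProduct.add_tmul, Finsupp.sum_add])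
  have hB : ∀ s t, B s t = (b.repr t).sum fun μ c => r (s * b μ) ⊗ₜ[ℚ] c := fun _ _ => rfl
  refine ⟨B, fun f s t => ?_, fun f s t => ?_, fun s t => ?_⟩
  · rw [hB, hB, Finsupp.mul_sum]
    refine Finsupp.sum_congr fun μ _ => ?_
    rw [Algebra.TensorProduct.tmul_mul_tmul, one_mul, mul_assoc, ← Algebra.smul_def, map_smul,
      smul_eq_mul]
  · rw [hB, hB, ← Algebra.smul_def, map_smul, Finsupp.sum_smul_index' (fun μ => by simp),
      Finsupp.mul_sum]
    refine Finsupp.sum_congr fun μ _ => ?_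
    rw [Algebra.TensorProduct.tmul_mul_tmul, one_mul, smul_eq_mul]
  · rw [hB, map_finsuppSum]
    conv_rhs => rw [← b.linearCombination_repr t, Finsupp.linearCombination_apply,
      Finsupp.mul_sum, map_finsuppSum]
    refine Finsupp.sum_congr fun μ _ => ?_
    rw [LinearMap.mul'_apply, mul_smul_comm, map_smul, smul_eq_mul, mul_comm]

lemma exists_retraction (F : Type) [Field F] [Algebra ℚ F] [Algebra F ℝ] :
    ∃ (ρ : ℝ ⊗[ℚ] ℝ →+ F ⊗[ℚ] F) (r : ℝ →ₗ[F] F), r 1 = 1 ∧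
      (∀ (f f' : F) (τ : ℝ ⊗[ℚ] ℝ),
        ρ ((algebraMap F ℝ f ⊗ₜ[ℚ] algebraMap F ℝ f') * τ) = (f ⊗ₜ[ℚ] f') * ρ τ) ∧
      ∀ τ, LinearMap.mul' ℚ F (ρ τ) = r (LinearMap.mul' ℚ ℝ τ) := by
  obtain ⟨r, hr⟩ := (Algebra.linearMap F ℝ).exists_leftInverse_of_injective
    (LinearMap.ker_eq_bot.mpr (algebraMap F ℝ).injective)
  have hr1 : r 1 = 1 := by simpa using LinearMap.congr_fun hr 1
  obtain ⟨B, hL, hR, hm⟩ := exists_bilinear F r
  have hbal : ∀ (q : ℚ) s t, B (q • s) t = B s (q • t) := fun q s t => by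
    rw [Rat.smul_def, Rat.smul_def, bal_rat]
  obtain ⟨ρ, hρ⟩ : ∃ ρ : ℝ ⊗[ℚ] ℝ →+ F ⊗[ℚ] F, ∀ s t, ρ (s ⊗ₜ t) = B s t :=
    ⟨TensorProduct.liftAddHom B hbal, fun _ _ => rfl⟩
  refine ⟨ρ, r, hr1, fun f f' τ => ?_, fun τ => ?_⟩
  · induction τ using TensorProduct.induction_on with
    | zero => rw [mul_zero, map_zero, mul_zero]
    | add τ τ' h1 h2 => rw [mul_add, ρ.map_add, ρ.map_add, h1, h2, mul_add]
    | tmul s t =>
      rw [Algebra.TensorProduct.tmul_mul_tmul, hρ, hρ, hL, hR, ← mul_assoc,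
        Algebra.TensorProduct.tmul_mul_tmul, one_mul, mul_one]
  · induction τ using TensorProduct.induction_on with
    | zero => simp only [map_zero]
    | add τ τ' h1 h2 => simp only [map_add, h1, h2]
    | tmul s t => rw [hρ, hm, LinearMap.mul'_apply]

lemma homog_coe {F : IntermediateField ℚ ℝ} {x : Fin d → F} {a : E d}
    (hx : ∀ α, (x α : ℝ) = a α) (α : Fin (d + 1)) :
    ((homog x α : F) : ℝ) = (Fin.cons 1 (fun β => a β) : Fin (d + 1) → ℝ) α := by
  refine Fin.cases ?_ (fun β => ?_) α <;> simp [homog, hx]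

lemma tmul_mul_tmul' {F : Type} [CommRing F] [Algebra ℚ F] (f f' : F) (τ : F ⊗[ℚ] F) :
    (f ⊗ₜ[ℚ] (1 : F)) * τ * ((1 : F) ⊗ₜ[ℚ] f') = (f ⊗ₜ[ℚ] f') * τ := by
  rw [mul_right_comm, Algebra.TensorProduct.tmul_mul_tmul, one_mul, mul_one]

theorem tensorCondition_iff (A : Finset (E d)) (F : IntermediateField ℚ ℝ)
    (hF : ∀ x ∈ A, ∀ α, x α ∈ F) : TensorCondition (pointsOver A F) ↔ TCR (pts A) := by
  constructor
  · rintro ⟨P, hP, hm⟩
    let Φ := Algebra.TensorProduct.map F.val F.val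
    have hΦ : ∀ τ, LinearMap.mul' ℚ ℝ (Φ τ) = (LinearMap.mul' ℚ F τ : ℝ) := by
      intro τ
      induction τ using TensorProduct.induction_on with
      | zero => simp
      | add τ τ' h1 h2 => simp only [map_add, h1, h2]; rfl
      | tmul s t => simp [Φ]
    refine ⟨fun α β => Φ (P α β), fun i => ?_, fun α β => ?_⟩
    · have hx : ∀ α, ((fun α => (⟨i.1 α, hF _ i.2 α⟩ : F)) α : ℝ) = i.1 α := fun _ => rfl
      have := congrArg Φ (hP _ ⟨i.1, i.2, hx⟩)
      simp only [tensorForm, tmul_mul_tmul', map_sum, map_mul, map_zero, Φ,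
        Algebra.TensorProduct.map_tmul, IntermediateField.coe_val, homog_coe hx] at this
      exact this
    · rw [hΦ, hm]; split_ifs <;> simp
  · rintro ⟨P, hP, hm⟩
    obtain ⟨ρ, r, hr1, hρ, hmρ⟩ := exists_retraction F
    refine ⟨fun α β => ρ (P α β), ?_, fun α β => ?_⟩
    · rintro x ⟨a, ha, hx⟩
      have := congrArg ρ (hP ⟨a, ha⟩)
      rw [map_zero, map_sum] at this
      rw [← this]
      refine Finset.sum_congr rfl fun α _ => ?_
      rw [map_sum]
      refine Finset.sum_congr rfl fun β _ => ?_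
      rw [tmul_mul_tmul', ← hρ]
      congr 3
      · exact homog_coe hx α
      · exact homog_coe hx β
    · rw [hmρ, hm]; split_ifs <;> simp [hr1]

theorem isRamsey_iff {A : Finset (E d)} (hA : A.Nonempty) (F : IntermediateField ℚ ℝ)
    (hF : ∀ x ∈ A, ∀ α, x α ∈ F) : IsRamsey A ↔ TensorCondition (pointsOver A F) := by
  rw [tensorCondition_iff A F hF]
  exact ⟨fun h => h.tcr hA, fun h => h.isRamsey⟩

end Vale.Agent.P058
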