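import Vale.Agent.P058.Sub

/-!
# P058, part 12: spherical sets with at most five points, or with algebraic coordinates, are Ramsey
-/

namespace Vale.Agent.P058

open scoped TensorProduct RealInnerProductSpace

variable {d : ℕ}

/-- The real matrix of a sphere. -/
lemma exists_sphere_matrix {A : Finset (E d)} {z : E d} {ρ : ℝ} (hA : ∀ x ∈ A, dist x z = ρ) :
    ∃ P : Fin (d + 1) → Fin (d + 1) → ℝ,
      (∀ i : A, ∑ α, ∑ β, (Fin.cons 1 (pts A i) : Fin (d + 1) → ℝ) α *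
        (Fin.cons 1 (pts A i) : Fin (d + 1) → ℝ) β * P α β = 0) ∧
      ∀ α β : Fin d, P α.succ β.succ = if α = β then 1 else 0 := by
  refine ⟨Fin.cons (Fin.cons (∑ α, z α ^ 2 - ρ ^ 2) fun β => - z β)
    fun α => Fin.cons (- z α) fun β => if α = β then 1 else 0, fun i => ?_, fun α β => by simp⟩
  have h := EuclideanSpace.dist_sq_eq i.1 z
  rw [hA _ i.2] at h
  simp only [Fin.sum_univ_succ, Fin.cons_zero, Fin.cons_succ, pts, mul_ite, mul_one, mul_zero,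
    Finset.sum_ite_eq, Finset.mem_univ, if_true, one_mul, h, Real.dist_eq, sq_abs,
    Finset.sum_add_distrib]
  rw [← Finset.sum_sub_distrib, ← Finset.sum_add_distrib, ← Finset.sum_add_distrib,
    ← Finset.sum_add_distrib]
  exact Finset.sum_eq_zero fun α _ => by ring

lemma tcr_of_independent {A : Finset (E d)} {z : E d} {ρ : ℝ} (hA : ∀ x ∈ A, dist x z = ρ)
    (hQ : ∀ i : A, ∃ l l' : W d, ev (pts A) i l * ev (pts A) i l' = 1 ∧
      ∀ j, j ≠ i → ev (pts A) j l * ev (pts A) j l' = 0) : TCR (pts A) := by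
  classical
  obtain ⟨P0, hP0, hP0'⟩ := exists_sphere_matrix hA
  choose l l' h1 h0 using hQ
  let m := Algebra.TensorProduct.lmul' (S := ℝ) ℚ
  have hm : ∀ τ, LinearMap.mul' ℚ ℝ τ = m τ := fun _ => rfl
  let p : A → Fin (d + 1) → ℝ := fun i => Fin.cons 1 (pts A i)
  let c : W d → Fin (d + 1) → ℝ := fun l => Fin.cons l.1 l.2
  have hc : ∀ i l, ∑ α, p i α * c l α = ev (pts A) i l := fun i l => by
    simp [p, c, ev, Fin.sum_univ_succ, mul_comm]
  let M : Matrix A A (ℝ ⊗[ℚ] ℝ) := fun j i => ev (pts A) j (l i) ⊗ₜ[ℚ] ev (pts A) j (l' i)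
  have hM : m.toRingHom.mapMatrix M = 1 := by
    ext j i
    change m (ev (pts A) j (l i) ⊗ₜ[ℚ] ev (pts A) j (l' i)) = _
    rw [Algebra.TensorProduct.lmul'_apply_tmul]
    by_cases h : j = i
    · subst h; rw [h1, Matrix.one_apply_eq]
    · rw [h0 i j h, Matrix.one_apply_ne h]
  have hdet : m M.det = 1 := by
    have := m.toRingHom.map_det M
    rw [hM, Matrix.det_one] at this
    exact this
  let r : A → ℝ ⊗[ℚ] ℝ := fun j => ∑ α, ∑ β, (p j α ⊗ₜ[ℚ] p j β) * (P0 α β ⊗ₜ[ℚ] (1 : ℝ))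
  have hr : ∀ j, m (r j) = 0 := fun j => by
    rw [← hP0 j]
    simp [r, m, p, mul_right_comm]
  let k : A → ℝ ⊗[ℚ] ℝ := M.adjugate.mulVec r
  have hk : ∀ i, m (k i) = 0 := fun i => by
    simp [k, Matrix.mulVec, dotProduct, hr]
  have hMk : M.mulVec k = M.det • r := by
    simp only [k, Matrix.mulVec_mulVec, Matrix.mul_adjugate, Matrix.smul_mulVec,
      Matrix.one_mulVec]
  refine ⟨fun α β => M.det * (P0 α β ⊗ₜ[ℚ] (1 : ℝ)) - ∑ i, (c (l i) α ⊗ₜ[ℚ] c (l' i) β) * k i,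
    fun j => ?_, fun α β => ?_⟩
  · have e1 : ∑ α, ∑ β, (p j α ⊗ₜ[ℚ] p j β) * (M.det * (P0 α β ⊗ₜ[ℚ] (1 : ℝ))) = M.det * r j := by
      simp only [r, Finset.mul_sum, mul_left_comm]
    have e2 : ∑ α, ∑ β, (p j α ⊗ₜ[ℚ] p j β) * ∑ i, (c (l i) α ⊗ₜ[ℚ] c (l' i) β) * k i =
        M.mulVec k j := by
      simp only [Matrix.mulVec, dotProduct, M, ← hc, TensorProduct.sum_tmul,
        TensorProduct.tmul_sum, Finset.mul_sum, Finset.sum_mul, ← mul_assoc,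
        Algebra.TensorProduct.tmul_mul_tmul]
      simp_rw [Finset.sum_comm (s := (Finset.univ : Finset (Fin (d + 1))))
        (t := (Finset.univ : Finset A))]
      exact Finset.sum_congr rfl fun i _ => Finset.sum_comm
    change ∑ α, ∑ β, (p j α ⊗ₜ[ℚ] p j β) * _ = 0
    simp only [mul_sub, Finset.sum_sub_distrib]
    rw [e1, e2, hMk, Pi.smul_apply, smul_eq_mul, sub_self]
  · rw [hm, map_sub, map_mul, hdet, map_sum]
    simp only [map_mul, hk, mul_zero, Finset.sum_const_zero, sub_zero, one_mul]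
    simp [m, hP0']

lemma exists_line {z : E d} {ρ : ℝ} {x y w : E d} (hx : dist x z = ρ) (hy : dist y z = ρ)
    (hw : dist w z = ρ) (hxy : x ≠ y) (hxw : x ≠ w) :
    ∃ (c : ℝ) (n : E d), c + ⟪n, x⟫ = 1 ∧ c + ⟪n, y⟫ = 0 ∧ c + ⟪n, w⟫ = 0 := by
  suffices h : ∃ n : E d, ⟪n, x - y⟫ ≠ 0 ∧ ⟪n, w - y⟫ = 0 by
    obtain ⟨n, h1, h2⟩ := h
    refine ⟨-(⟪n, x - y⟫⁻¹ * ⟪n, y⟫), ⟪n, x - y⟫⁻¹ • n, ?_, ?_, ?_⟩
    · rw [real_inner_smul_left]; field_simp; rw [inner_sub_right]; ring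
    · rw [real_inner_smul_left]; ring
    · rw [real_inner_smul_left, inner_sub_right n w, sub_eq_zero] at *
      rw [h2]; ring
  by_cases hyw : w = y
  · exact ⟨x - y, by simpa using sub_ne_zero.mpr hxy, by simp [hyw]⟩
  set u := w - y with hu
  set v := x - y with hv
  have hu0 : u ≠ 0 := sub_ne_zero.mpr hyw
  refine ⟨⟪u, u⟫ • v - ⟪u, v⟫ • u, fun h => ?_, ?_⟩
  · have hn : ⟪u, u⟫ • v - ⟪u, v⟫ • u = 0 := by
      rw [← inner_self_eq_zero (𝕜 := ℝ), inner_sub_right, real_inner_smul_right,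
        real_inner_smul_right, h, inner_sub_left (⟪u, u⟫ • v), real_inner_smul_left,
        real_inner_smul_left, real_inner_comm u v]
      ring
    have huu : ⟪u, u⟫ ≠ 0 := by simpa using hu0
    obtain ⟨t, ht⟩ : ∃ t : ℝ, v = t • u :=
      ⟨⟪u, v⟫ / ⟪u, u⟫, by
        rw [div_eq_inv_mul, mul_smul, ← sub_eq_zero.mp hn, smul_smul, inv_mul_cancel₀ huu,
          one_smul]⟩
    have e1 : x - z = y - z + t • u := by rw [← ht, hv]; abel
    have e2 : w - z = y - z + u := by rw [hu]; abel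
    rw [dist_eq_norm] at hx hy hw
    have f1 := norm_add_sq_real (y - z) (t • u)
    have f2 := norm_add_sq_real (y - z) u
    rw [← e1, hx, hy, real_inner_smul_right, norm_smul, mul_pow, Real.norm_eq_abs, sq_abs] at f1
    rw [← e2, hw, hy] at f2
    have hn2 : ‖u‖ ^ 2 ≠ 0 := by simpa using hu0
    have : t * (t - 1) * ‖u‖ ^ 2 = 0 := by linear_combination t * f2 - f1
    rcases mul_eq_zero.mp ((mul_eq_zero.mp this).resolve_right hn2) with h0 | h0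
    · rw [h0, zero_smul] at ht; exact hxy (sub_eq_zero.mp ht)
    · rw [sub_eq_zero.mp h0, one_smul, hv, hu, sub_left_inj] at ht; exact hxw ht
  · rw [inner_sub_left (⟪u, u⟫ • v), real_inner_smul_left, real_inner_smul_left,
      real_inner_comm u v]
    ring

theorem isRamsey_of_card_le_five {A : Finset (E d)} {z : E d} {ρ : ℝ}
    (hA : ∀ x ∈ A, dist x z = ρ) (hcard : A.card ≤ 5) : IsRamsey A := by
  classical
  refine (tcr_of_independent hA fun i => ?_).isRamsey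
  have hline : ∀ T : Finset (E d), T ⊆ A.erase i.1 → T.card ≤ 2 →
      ∃ l : W d, ev (pts A) i l = 1 ∧ ∀ j : A, j.1 ∈ T → ev (pts A) j l = 0 := by
    intro T hT hT2
    rcases T.eq_empty_or_nonempty with rfl | ⟨y, hy⟩
    · exact ⟨(1, 0), ev_const _ _ _, by simp⟩
    obtain ⟨w, hw, hyw⟩ : ∃ w ∈ T, ∀ x ∈ T, x = y ∨ x = w := by
      rcases (T.erase y).eq_empty_or_nonempty with h | ⟨w, hw⟩
      · refine ⟨y, hy, fun x hx => Or.inl ?_⟩
        by_contra hne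
        have : x ∈ T.erase y := Finset.mem_erase.mpr ⟨hne, hx⟩
        simp [h] at this
      · refine ⟨w, Finset.mem_of_mem_erase hw, fun x hx => ?_⟩
        by_cases hxy : x = y
        · exact Or.inl hxy
        · refine Or.inr (Finset.card_le_one.mp ?_ x (Finset.mem_erase.mpr ⟨hxy, hx⟩) w hw)
          rw [Finset.card_erase_of_mem hy]; omega
    have hy' := Finset.mem_erase.mp (hT hy)
    have hw' := Finset.mem_erase.mp (hT hw)
    obtain ⟨c, n, h1, h2, h3⟩ := exists_line (hA _ i.2) (hA _ hy'.2) (hA _ hw'.2) hy'.1.symm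
      hw'.1.symm
    have hev : ∀ j : A, ev (pts A) j (c, fun α => n α) = c + ⟪n, j.1⟫ := fun j => by
      simp [ev, pts, PiLp.inner_apply, mul_comm]
    refine ⟨(c, fun α => n α), by rw [hev, h1], fun j hj => ?_⟩
    rw [hev]
    rcases hyw _ hj with h | h <;> rw [h] <;> assumption
  have hc : (A.erase i.1).card ≤ 4 := by rw [Finset.card_erase_of_mem i.2]; omega
  obtain ⟨T, hT, hTc⟩ := Finset.exists_subset_card_eq (s := A.erase i.1)
    (n := min 2 (A.erase i.1).card) (min_le_right _ _)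
  obtain ⟨l, hl1, hl0⟩ := hline T hT (by omega)
  obtain ⟨l', hl1', hl0'⟩ := hline (A.erase i.1 \ T) Finset.sdiff_subset (by
    rw [Finset.card_sdiff_of_subset hT]; omega)
  refine ⟨l, l', by rw [hl1, hl1', one_mul], fun j hj => ?_⟩
  by_cases h : j.1 ∈ T
  · rw [hl0 j h, zero_mul]
  · rw [hl0' j (Finset.mem_sdiff.mpr
      ⟨Finset.mem_erase.mpr ⟨fun e => hj (Subtype.ext e), j.2⟩, h⟩), mul_zero]

lemma exists_separating {a : ℝ} (ha : IsAlgebraic ℚ a) :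
    ∃ e : ℝ ⊗[ℚ] ℝ, Algebra.TensorProduct.lmul' (S := ℝ) ℚ e = 1 ∧
      ((1 : ℝ) ⊗ₜ[ℚ] a) * e = (a ⊗ₜ[ℚ] (1 : ℝ)) * e := by
  let m := Algebra.TensorProduct.lmul' (S := ℝ) ℚ
  have hsep : (minpoly ℚ a).Separable := (minpoly.irreducible ha.isIntegral).separable
  have hd : Polynomial.aeval a (Polynomial.derivative (minpoly ℚ a)) ≠ 0 :=
    hsep.aeval_derivative_ne_zero (minpoly.aeval ℚ a)
  obtain ⟨k, hk⟩ := Polynomial.binomExpansion ((minpoly ℚ a).map (algebraMap ℚ (ℝ ⊗[ℚ] ℝ)))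
    (a ⊗ₜ[ℚ] (1 : ℝ)) ((1 : ℝ) ⊗ₜ[ℚ] a - a ⊗ₜ[ℚ] (1 : ℝ))
  rw [add_sub_cancel, Polynomial.derivative_map, Polynomial.eval_map_algebraMap,
    Polynomial.eval_map_algebraMap, Polynomial.eval_map_algebraMap] at hk
  have h1 : Polynomial.aeval ((1 : ℝ) ⊗ₜ[ℚ] a) (minpoly ℚ a) = 0 := by
    have := Polynomial.aeval_algHom_apply (Algebra.TensorProduct.includeRight (R := ℚ) (A := ℝ))
      a (minpoly ℚ a)
    rw [minpoly.aeval, map_zero] at this
    exact this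
  have h2 : Polynomial.aeval (a ⊗ₜ[ℚ] (1 : ℝ)) (minpoly ℚ a) = 0 := by
    have := Polynomial.aeval_algHom_apply
      (Algebra.TensorProduct.includeLeft (R := ℚ) (S := ℚ) (B := ℝ)) a (minpoly ℚ a)
    rw [minpoly.aeval, map_zero] at this
    exact this
  rw [h1, h2, zero_add] at hk
  refine ⟨(Polynomial.aeval (a ⊗ₜ[ℚ] (1 : ℝ)) (Polynomial.derivative (minpoly ℚ a)) +
    k * ((1 : ℝ) ⊗ₜ[ℚ] a - a ⊗ₜ[ℚ] (1 : ℝ))) *
    ((Polynomial.aeval a (Polynomial.derivative (minpoly ℚ a)))⁻¹ ⊗ₜ[ℚ] (1 : ℝ)), ?_, ?_⟩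
  · rw [map_mul, map_add, ← Polynomial.aeval_algHom_apply]
    simp [hd]
  · rw [← sub_eq_zero, ← sub_mul, ← mul_assoc]
    have : ((1 : ℝ) ⊗ₜ[ℚ] a - a ⊗ₜ[ℚ] (1 : ℝ)) * (Polynomial.aeval (a ⊗ₜ[ℚ] (1 : ℝ))
        (Polynomial.derivative (minpoly ℚ a)) + k * ((1 : ℝ) ⊗ₜ[ℚ] a - a ⊗ₜ[ℚ] (1 : ℝ))) = 0 := by
      rw [hk]; ring
    rw [this, zero_mul]

theorem isRamsey_of_algebraic {A : Finset (E d)} {z : E d} {ρ : ℝ}
    (hA : ∀ x ∈ A, dist x z = ρ) (halg : ∀ x ∈ A, ∀ α, IsAlgebraic ℚ (x α)) : IsRamsey A := by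
  classical
  apply TCR.isRamsey
  obtain ⟨P0, hP0, hP0'⟩ := exists_sphere_matrix hA
  choose e he1 he2 using fun q : A × Fin d => exists_separating (halg q.1.1 q.1.2 q.2)
  let p : A → Fin (d + 1) → ℝ := fun i => Fin.cons 1 (pts A i)
  have hE : ∀ i β, ((1 : ℝ) ⊗ₜ[ℚ] p i β) * ∏ q, e q = (p i β ⊗ₜ[ℚ] (1 : ℝ)) * ∏ q, e q := by
    intro i β
    refine Fin.cases rfl (fun β => ?_) β
    rw [← Finset.mul_prod_erase _ _ (Finset.mem_univ (i, β)), ← mul_assoc, ← mul_assoc]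
    congr 1
    exact he2 (i, β)
  refine ⟨fun α β => (P0 α β ⊗ₜ[ℚ] (1 : ℝ)) * ∏ q, e q, fun i => ?_, fun α β => ?_⟩
  · have : ∀ α β, (p i α ⊗ₜ[ℚ] p i β) * ((P0 α β ⊗ₜ[ℚ] (1 : ℝ)) * ∏ q, e q) =
        ((p i α * p i β * P0 α β) ⊗ₜ[ℚ] (1 : ℝ)) * ∏ q, e q := by
      intro α β
      have e1 : p i α ⊗ₜ[ℚ] p i β = (p i α ⊗ₜ[ℚ] (1 : ℝ)) * ((1 : ℝ) ⊗ₜ[ℚ] p i β) := by simp
      rw [e1, mul_assoc, mul_left_comm ((1 : ℝ) ⊗ₜ[ℚ] p i β), hE, ← mul_assoc, ← mul_assoc]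
      simp [mul_right_comm]
    change ∑ α, ∑ β, (p i α ⊗ₜ[ℚ] p i β) * _ = 0
    simp only [this, ← Finset.sum_mul, ← TensorProduct.sum_tmul]
    rw [hP0 i, TensorProduct.zero_tmul, zero_mul]
  · change Algebra.TensorProduct.lmul' (S := ℝ) ℚ _ = _
    rw [map_mul, map_prod]
    simp [he1, hP0']

end Vale.Agent.P058
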