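import Vale.Agent.P058.Tensor

/-!
# P058, part 6: the algebraic theorem, in the group ring and the free group
-/

namespace Vale.Agent.P058

open Matrix

variable {ι : Type} {d : ℕ} {a : ι → Fin d → ℝ}

/-- The exponentials in the integral group ring of the additive group of reals. -/
noncomputable def xp (t : ℝ) : AddMonoidAlgebra ℤ ℝ :=
  AddMonoidAlgebra.of ℤ ℝ (Multiplicative.ofAdd t)

lemma expRing_xp : ExpRing (AddMonoidAlgebra ℤ ℝ) xp where
  zero := by simp only [xp, ofAdd_zero, map_one]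
  add s t := by simp only [xp, ofAdd_add, map_mul]
  span := by
    rw [eq_top_iff]
    intro r _
    induction r using AddMonoidAlgebra.induction_on with
    | of m => exact AddSubgroup.subset_closure ⟨m, rfl⟩
    | add x y hx hy => exact add_mem (hx trivial) (hy trivial)
    | smul r x hx => exact zsmul_mem (hx trivial) r
  dil k := by
    refine ⟨(AddMonoidAlgebra.lift ℤ (AddMonoidAlgebra ℤ ℝ) ℝ
      ((AddMonoidAlgebra.of ℤ ℝ).comp
        (AddMonoidHom.toMultiplicative (AddMonoidHom.mulLeft (k : ℝ))))).toRingHom, fun t => ?_⟩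
    simp only [xp, AlgHom.toRingHom_eq_coe, RingHom.coe_coe, AddMonoidAlgebra.lift_of]
    rfl

lemma exists_addHom_xp {M : Type} [AddCommGroup M] (f : ℝ → M) :
    ∃ ψ : AddMonoidAlgebra ℤ ℝ →+ M, ∀ t, ψ (xp t) = f t := by
  refine ⟨(Finsupp.liftAddHom fun t => zmultiplesHom M (f t)).comp
    AddMonoidAlgebra.coeffAddEquiv.toAddMonoidHom, fun t => ?_⟩
  simp [xp]

/-- The free group on the nonzero reals. -/
abbrev FG := FreeGroup {t : ℝ // t ≠ 0}

open Classical in
/-- The generators, with `0` sent to the identity. -/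
noncomputable def gen (t : ℝ) : FG := if h : t = 0 then 1 else FreeGroup.of ⟨t, h⟩

lemma gen_zero : gen 0 = 1 := by simp [gen]

lemma exists_hom_gen {G : Type} [Group G] (g : ℝ → G) (hg : g 0 = 1) :
    ∃ f : FG →* G, ∀ t, f (gen t) = g t := by
  refine ⟨FreeGroup.lift fun t => g t.1, fun t => ?_⟩
  by_cases h : t = 0
  · simp [gen, h, hg]
  · simp [gen, h]

lemma closure_gen : Subgroup.closure (Set.range gen) = ⊤ := by
  rw [eq_top_iff, ← FreeGroup.closure_range_of]
  apply Subgroup.closure_mono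
  rintro _ ⟨t, rfl⟩
  exact ⟨t.1, by simp [gen, t.2]⟩

lemma GamA.lift_group {M : Type} [AddCommGroup M] {x : ℝ → M} {H : Type} [Group H] {g : ℝ → H}
    (ψ : M →+ Additive (Abelianization H))
    (hψ : ∀ t, ψ (x t) = Additive.ofMul (Abelianization.of (g t))) {D : Deg d} {p : ι → M}
    (h : GamA a x D p) :
    ∃ y : ι → H, Gam a g D y ∧ ∀ i, Additive.ofMul (Abelianization.of (y i)) = ψ (p i) := by
  induction h with
  | diag r =>
    obtain ⟨z, hz⟩ : ∃ z : H, Abelianization.of z = Additive.toMul (ψ r) :=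
      Quot.exists_rep _
    exact ⟨_, Gam.diag z, fun _ => by rw [hz]; rfl⟩
  | letter l => exact ⟨_, Gam.letter l, fun _ => (hψ _).symm⟩
  | add _ _ ih1 ih2 =>
    obtain ⟨x1, h1, e1⟩ := ih1
    obtain ⟨x2, h2, e2⟩ := ih2
    exact ⟨_, h1.mul h2, fun i => by simp [e1, e2]⟩

theorem TCR.pr [Fintype ι] (ha : Function.Injective a) (h : TCR a) : Pr a gen (lcs FG 1) := by
  intro ε hε
  obtain ⟨D, u, p, q, hu, hp, hq, hD, hpq⟩ := (h.prA expRing_xp).bot ha expRing_xp ε hε
  obtain ⟨ψ, hψ⟩ := exists_addHom_xp fun t => Additive.ofMul (Abelianization.of (gen t))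
  obtain ⟨y, hy, ey⟩ := hp.lift_group ψ hψ
  obtain ⟨z, hz, ez⟩ := hq.lift_group ψ hψ
  refine ⟨D, u, y, z, hu, hy, hz, hD, fun i => ?_⟩
  have e : p i = q i := sub_eq_zero.mp (hpq i)
  have e2 : Abelianization.of (y i) = Abelianization.of (z i) :=
    Additive.ofMul.injective (by rw [ey, ez, e])
  have : y i * (z i)⁻¹ ∈ (Abelianization.of (G := FG)).ker := by
    rw [MonoidHom.mem_ker, map_mul, map_inv, e2, mul_inv_cancel]
  rwa [Abelianization.ker_of] at this

/-- The algebraic theorem. -/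
theorem TCR.flexible [Fintype ι] (ha : Function.Injective a) (h : TCR a) (N : ℕ) :
    ∃ b : ℝ, 0 < b ∧ ∀ (G : Type) [Group G] (g : ℝ → G), g 0 = 1 → ∃ β : ι → G,
      ∀ m : ℕ, 1 ≤ m → m ≤ N + 1 → Gam a g (((m : ℝ) * b) • 1) β := by
  obtain ⟨b, β, hb, hβ⟩ := exists_flexible ha gen_zero closure_gen
    (fun k => exists_hom_gen (fun t => gen t ^ k) (by simp [gen_zero])) (h.pr ha) N
  refine ⟨b, hb, fun G _ g hg => ?_⟩
  obtain ⟨f, hf⟩ := exists_hom_gen g hg
  refine ⟨fun i => f (β i), fun m h1 h2 => ?_⟩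
  have := (hβ m h1 h2).map f
  rwa [show (fun t => f (gen t)) = g from funext hf] at this

end Vale.Agent.P058
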