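import Mathlib

/-!
# P058, part 1: the graded monoid generated by letters and diagonal elements
-/

namespace Vale.Agent.P058

open Matrix

/-- Affine functionals on `ℝ^d`: constant term and linear part. -/
abbrev W (d : ℕ) := ℝ × (Fin d → ℝ)

/-- Degrees are square matrices. -/
abbrev Deg (d : ℕ) := Matrix (Fin d) (Fin d) ℝ

variable {ι : Type} {d : ℕ}

/-- Value of an affine functional at the point `a i`. -/
def ev (a : ι → Fin d → ℝ) (i : ι) (l : W d) : ℝ := l.1 + ∑ α, l.2 α * a i α

/-- The rank one matrix `y yᵀ`. -/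
def sq (y : Fin d → ℝ) : Deg d := vecMulVec y y

lemma ev_add (a : ι → Fin d → ℝ) (i : ι) (l l' : W d) :
    ev a i (l + l') = ev a i l + ev a i l' := by
  simp only [ev, Prod.fst_add, Prod.snd_add, Pi.add_apply, add_mul, Finset.sum_add_distrib]
  ring

lemma ev_smul (a : ι → Fin d → ℝ) (i : ι) (c : ℝ) (l : W d) :
    ev a i (c • l) = c * ev a i l := by
  simp only [ev, Prod.smul_fst, Prod.smul_snd, Pi.smul_apply, smul_eq_mul, mul_add,
    Finset.mul_sum, mul_assoc]

lemma ev_zero (a : ι → Fin d → ℝ) (i : ι) : ev a i 0 = 0 := by simp [ev]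

lemma ev_const (a : ι → Fin d → ℝ) (i : ι) (c : ℝ) : ev a i (c, 0) = c := by simp [ev]

lemma ev_neg (a : ι → Fin d → ℝ) (i : ι) (l : W d) : ev a i (-l) = - ev a i l := by
  have := ev_smul a i (-1) l
  simpa using this

lemma ev_single (a : ι → Fin d → ℝ) (i : ι) (α : Fin d) (c : ℝ) :
    ev a i (0, Pi.single α c) = c * a i α := by
  simp [ev, Pi.single_apply]

lemma trace_sq (y : Fin d → ℝ) : (sq y).trace = ∑ α, y α ^ 2 := by
  simp [sq, Matrix.trace, vecMulVec_apply, pow_two]

lemma trace_sq_nonneg (y : Fin d → ℝ) : 0 ≤ (sq y).trace := by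
  rw [trace_sq]; positivity

lemma sq_smul (c : ℝ) (y : Fin d → ℝ) : sq (c • y) = (c ^ 2) • sq y := by
  ext α β; simp [sq, vecMulVec_apply]; ring

lemma sq_zero : sq (0 : Fin d → ℝ) = 0 := by
  ext α β; simp [sq]

lemma sq_neg (y : Fin d → ℝ) : sq (-y) = sq y := by
  ext α β; simp [sq, vecMulVec_apply]

lemma sum_sq_single (c : ℝ) :
    ∑ α : Fin d, sq (Pi.single α c : Fin d → ℝ) = (c ^ 2) • (1 : Deg d) := by
  ext β γ
  simp only [sq, Matrix.sum_apply, vecMulVec_apply, Pi.single_apply, Matrix.smul_apply,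
    Matrix.one_apply, smul_eq_mul]
  by_cases h : β = γ
  · subst h; simp [pow_two]
  · simp only [h, if_false, mul_zero]
    refine Finset.sum_eq_zero fun x _ => ?_
    by_cases h1 : β = x <;> by_cases h2 : γ = x <;> simp_all

/-- Two distinct points can be given arbitrary values by an affine functional of controlled
size. -/
lemma exists_letter (a : ι → Fin d → ℝ) {i j : ι} (hij : a i ≠ a j) :
    ∃ C : ℝ, 0 ≤ C ∧ ∀ s t : ℝ, ∃ l : W d, ev a i l = s ∧ ev a j l = t ∧
      (sq l.2).trace ≤ C * (s - t) ^ 2 := by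
  obtain ⟨α, hα⟩ : ∃ α, a i α ≠ a j α := Function.ne_iff.mp hij
  have hne : a i α - a j α ≠ 0 := sub_ne_zero.mpr hα
  refine ⟨1 / (a i α - a j α) ^ 2, by positivity, fun s t => ?_⟩
  refine ⟨(t - (s - t) / (a i α - a j α) * a j α, Pi.single α ((s - t) / (a i α - a j α))),
    ?_, ?_, ?_⟩
  · simp only [ev, Pi.single_apply, ite_mul, zero_mul, Finset.sum_ite_eq', Finset.mem_univ,
      if_true]
    field_simp
    ring
  · simp only [ev, Pi.single_apply, ite_mul, zero_mul, Finset.sum_ite_eq', Finset.mem_univ,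
      if_true]
    ring
  · rw [trace_sq]
    simp only [Pi.single_apply, ite_pow, ne_eq, OfNat.ofNat_ne_zero, not_false_eq_true,
      zero_pow, Finset.sum_ite_eq', Finset.mem_univ, if_true]
    rw [div_pow]; apply le_of_eq; field_simp

/-- The graded monoid generated by the diagonal (degree zero) and the letters. -/
inductive Gam {H : Type} [Group H] (a : ι → Fin d → ℝ) (g : ℝ → H) : Deg d → (ι → H) → Prop
  | diag (h : H) : Gam a g 0 (fun _ => h)
  | letter (l : W d) : Gam a g (sq l.2) (fun i => g (ev a i l))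
  | mul {D D' : Deg d} {x y : ι → H} : Gam a g D x → Gam a g D' y → Gam a g (D + D') (x * y)

variable {H : Type} [Group H] {a : ι → Fin d → ℝ} {g : ℝ → H}

lemma Gam.of_eq {D D' : Deg d} {x y : ι → H} (h : Gam a g D x) (hD : D = D') (hx : x = y) :
    Gam a g D' y := hD ▸ hx ▸ h

lemma Gam.one : Gam a g 0 (1 : ι → H) := Gam.diag 1

lemma Gam.trace_nonneg {D : Deg d} {x : ι → H} (h : Gam a g D x) : 0 ≤ D.trace := by
  induction h with
  | diag h => simp
  | letter l => exact trace_sq_nonneg _
  | mul _ _ ih1 ih2 => rw [Matrix.trace_add]; positivity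

lemma Gam.mul_diag {D : Deg d} {x : ι → H} (h : Gam a g D x) (δ : H) :
    Gam a g D (fun i => x i * δ) := (h.mul (Gam.diag δ)).of_eq (add_zero _) rfl

lemma Gam.pow {D : Deg d} {x : ι → H} (h : Gam a g D x) (m : ℕ) :
    Gam a g ((m : ℝ) • D) (x ^ m) := by
  induction m with
  | zero => simpa using Gam.one
  | succ m ih =>
    refine (ih.mul h).of_eq ?_ (pow_succ _ _).symm
    rw [Nat.cast_succ, add_smul, one_smul]

lemma Gam.map {H' : Type} [Group H'] (f : H →* H') {D : Deg d} {x : ι → H} (h : Gam a g D x) :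
    Gam a (fun t => f (g t)) D (fun i => f (x i)) := by
  induction h with
  | diag h => exact Gam.diag _
  | letter l => exact Gam.letter l
  | mul _ _ ih1 ih2 => exact (ih1.mul ih2).of_eq rfl (by ext i; simp)

/-- Every degree `s • 1` with `s ≥ 0` occurs. -/
lemma Gam.exists_sum {κ : Type} (s : Finset κ) (y : κ → Fin d → ℝ) :
    ∃ x : ι → H, Gam a g (∑ k ∈ s, sq (y k)) x := by
  classical
  induction s using Finset.induction_on with
  | empty => exact ⟨1, by simpa using Gam.one⟩
  | insert k s hk ih =>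
    obtain ⟨x, hx⟩ := ih
    rw [Finset.sum_insert hk]
    exact ⟨_, (Gam.letter (a := a) (g := g) (0, y k)).mul hx⟩

lemma Gam.exists_scalar {s : ℝ} (hs : 0 ≤ s) : ∃ x : ι → H, Gam a g (s • (1 : Deg d)) x := by
  obtain ⟨x, hx⟩ := Gam.exists_sum (a := a) (g := g) (Finset.univ : Finset (Fin d))
    (fun α => Pi.single α (Real.sqrt s))
  rw [sum_sq_single, Real.sq_sqrt hs] at hx
  exact ⟨x, hx⟩

/-- Lagrange's identity in matrix form. -/
lemma lagrange (y : Fin d → ℝ) :
    ∑ p : Fin d × Fin d, sq (Real.sqrt (1 / 2) •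
      (Pi.single p.2 (y p.1) - Pi.single p.1 (y p.2) : Fin d → ℝ)) =
      (sq y).trace • (1 : Deg d) - sq y := by
  simp_rw [sq_smul, Real.sq_sqrt (show (0 : ℝ) ≤ 1 / 2 by norm_num)]
  rw [trace_sq]
  ext β γ
  simp only [sq, Matrix.sum_apply, Matrix.smul_apply, vecMulVec_apply, Pi.sub_apply,
    Pi.single_apply, smul_eq_mul, Matrix.sub_apply, Matrix.one_apply, Fintype.sum_prod_type]
  have h1 : ∀ x z : Fin d, 1 / 2 * (((if β = z then y x else 0) - if β = x then y z else 0) *
      ((if γ = z then y x else 0) - if γ = x then y z else 0)) =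
      1 / 2 * (if β = z then (if β = γ then y x ^ 2 else 0) else 0)
      + 1 / 2 * (if β = x then (if β = γ then y z ^ 2 else 0) else 0)
      - 1 / 2 * (if β = z then (if γ = x then y γ * y β else 0) else 0)
      - 1 / 2 * (if β = x then (if γ = z then y β * y γ else 0) else 0) := by
    intro x z
    split_ifs <;> subst_vars <;> first | contradiction | ring
  simp_rw [h1]
  simp only [Finset.sum_sub_distrib, Finset.sum_add_distrib, ← Finset.mul_sum]
  rw [Finset.sum_comm (f := fun x z => if β = x then (if β = γ then y z ^ 2 else 0) else 0)]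
  rw [Finset.sum_comm (f := fun x z => if β = x then (if γ = z then y β * y γ else 0) else 0)]
  simp only [Finset.sum_ite_eq, Finset.mem_univ, if_true]
  by_cases h : β = γ
  · simp [h]; ring
  · simp [h]; ring

/-- Every degree can be completed to a scalar matrix. -/
lemma Gam.exists_compl {D : Deg d} {x : ι → H} (h : Gam a g D x) :
    ∃ z : ι → H, Gam a g (D.trace • (1 : Deg d) - D) z := by
  induction h with
  | diag h => exact ⟨1, by simpa using Gam.one⟩
  | letter l =>
    rw [← lagrange]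
    exact Gam.exists_sum _ _
  | mul _ _ ih1 ih2 =>
    obtain ⟨z1, h1⟩ := ih1
    obtain ⟨z2, h2⟩ := ih2
    refine ⟨_, (h1.mul h2).of_eq ?_ rfl⟩
    rw [Matrix.trace_add, add_smul]; abel

end Vale.Agent.P058
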