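import Vale.Agent.P058.Gam

/-!
# P058, part 2: deep commutators are absorbed at arbitrarily small cost
-/

namespace Vale.Agent.P058

open Matrix
open scoped commutatorElement

variable {ι : Type} {d : ℕ} {H : Type} [Group H] {a : ι → Fin d → ℝ} {g : ℝ → H}

/-- Telescoping product of `p` small steps. -/
lemma telescope {i j : ι} (C : ℝ)
    (hC : ∀ s t : ℝ, ∃ l : W d, ev a i l = s ∧ ev a j l = t ∧ (sq l.2).trace ≤ C * (s - t) ^ 2)
    (h : ℝ) (p : ℕ) (t : ℝ) :
    ∃ (D : Deg d) (Z : ι → H), Gam a g D Z ∧ D.trace ≤ p * (C * h ^ 2) ∧ Z j = 1 ∧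
      Z i = g t * (g (t + p * h))⁻¹ := by
  induction p with
  | zero => exact ⟨0, 1, Gam.one, by simp, rfl, by simp⟩
  | succ p ih =>
    obtain ⟨D, Z, hZ, hD, hj, hi⟩ := ih
    obtain ⟨l, hl1, hl2, hl3⟩ := hC (t + p * h) (t + (p + 1) * h)
    refine ⟨_, _, hZ.mul ((Gam.letter l).mul_diag (g (t + (p + 1) * h))⁻¹), ?_, ?_, ?_⟩
    · rw [Matrix.trace_add]
      have : (t + p * h - (t + (p + 1) * h)) ^ 2 = h ^ 2 := by ring
      rw [this] at hl3
      push_cast; linarith
    · simp [hj, hl2]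
    · simp [hi, hl1]

/-- Elements that can be put in coordinate `i`, with `1` in coordinate `j`, at arbitrarily small
cost. -/
def Zset (a : ι → Fin d → ℝ) (g : ℝ → H) (i j : ι) : Submonoid H where
  carrier := {h | ∀ ε : ℝ, 0 < ε → ∃ (D : Deg d) (Z : ι → H), Gam a g D Z ∧ D.trace ≤ ε ∧
    Z j = 1 ∧ Z i = h}
  one_mem' := fun ε hε => ⟨0, 1, Gam.one, by simpa using hε.le, rfl, rfl⟩
  mul_mem' := by
    intro x y hx hy ε hε
    obtain ⟨D, Z, hZ, hD, hj, hi⟩ := hx (ε / 2) (by positivity)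
    obtain ⟨D', Z', hZ', hD', hj', hi'⟩ := hy (ε / 2) (by positivity)
    refine ⟨_, _, hZ.mul hZ', ?_, by simp [hj, hj'], by simp [hi, hi']⟩
    rw [Matrix.trace_add]; linarith

lemma div_mem_Zset {i j : ι} (hij : a i ≠ a j) (s t : ℝ) : g t * (g s)⁻¹ ∈ Zset a g i j := by
  intro ε hε
  obtain ⟨C, hC0, hC⟩ := exists_letter a hij
  obtain ⟨p, hp⟩ := exists_nat_gt (C * (s - t) ^ 2 / ε)
  have hp0 : (0 : ℝ) < p := lt_of_le_of_lt (by positivity) hp
  obtain ⟨D, Z, hZ, hD, hj, hi⟩ := telescope (g := g) C hC ((s - t) / p) p t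
  refine ⟨D, Z, hZ, hD.trans ?_, hj, ?_⟩
  · rw [div_lt_iff₀ hε] at hp
    have : (p : ℝ) * (C * ((s - t) / p) ^ 2) = C * (s - t) ^ 2 / p := by field_simp
    rw [this, div_le_iff₀ hp0]; linarith
  · rw [hi]; congr 3; field_simp; ring

lemma mem_Zset (hg0 : g 0 = 1) (hgen : Subgroup.closure (Set.range g) = ⊤) {i j : ι}
    (hij : a i ≠ a j) (h : H) : h ∈ Zset a g i j := by
  have hh : h ∈ Subgroup.closure (Set.range g) := hgen ▸ Subgroup.mem_top h
  induction hh using Subgroup.closure_induction'' with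
  | mem x hx =>
    obtain ⟨t, rfl⟩ := hx
    simpa [hg0] using div_mem_Zset (g := g) hij 0 t
  | inv_mem x hx =>
    obtain ⟨t, rfl⟩ := hx
    simpa [hg0] using div_mem_Zset (g := g) hij t 0
  | one => exact one_mem _
  | mul x y _ _ hx hy => exact mul_mem hx hy

/-- Quotients, in coordinate `i`, of two cheap elements of the same degree that agree on `I`. -/
def KP (a : ι → Fin d → ℝ) (g : ℝ → H) (i : ι) (I : Finset ι) (κ : H) : Prop :=
  ∀ ε : ℝ, 0 < ε → ∃ (D : Deg d) (U V : ι → H), Gam a g D U ∧ Gam a g D V ∧ D.trace ≤ ε ∧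
    (∀ j ∈ I, U j = V j) ∧ (U i)⁻¹ * V i = κ

lemma KP.conj {i : ι} {I : Finset ι} {κ : H} (h : KP a g i I κ) (δ : H) :
    KP a g i I (δ⁻¹ * κ * δ) := by
  intro ε hε
  obtain ⟨D, U, V, hU, hV, hD, hI, hi⟩ := h ε hε
  refine ⟨D, _, _, hU.mul_diag δ, hV.mul_diag δ, hD, fun j hj => by simp [hI j hj], ?_⟩
  rw [← hi]; group

/-- The normal subgroup of such quotients. -/
def Kgrp (a : ι → Fin d → ℝ) (g : ℝ → H) (i : ι) (I : Finset ι) : Subgroup H where
  carrier := {κ | KP a g i I κ}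
  one_mem' := fun ε hε => ⟨0, 1, 1, Gam.one, Gam.one, by simpa using hε.le, fun _ _ => rfl,
    by simp⟩
  inv_mem' := by
    intro κ h ε hε
    obtain ⟨D, U, V, hU, hV, hD, hI, hi⟩ := h ε hε
    exact ⟨D, V, U, hV, hU, hD, fun j hj => (hI j hj).symm, by rw [← hi]; group⟩
  mul_mem' := by
    intro κ κ' h h' ε hε
    obtain ⟨D', U', V', hU', hV', hD', hI', hi'⟩ := h' (ε / 2) (by positivity)
    obtain ⟨D, U, V, hU, hV, hD, hI, hi⟩ := (KP.conj h (U' i)⁻¹) (ε / 2) (by positivity)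
    refine ⟨_, _, _, hU.mul hU', hV.mul hV', ?_, fun j hj => by simp [hI j hj, hI' j hj], ?_⟩
    · rw [Matrix.trace_add]; linarith
    · have : V i = U i * ((U' i)⁻¹⁻¹ * κ * (U' i)⁻¹) := by rw [← hi]; group
      simp only [Pi.mul_apply]
      rw [this, ← hi']; group

lemma mem_Kgrp_empty (i : ι) (κ : H) : κ ∈ Kgrp a g i ∅ := fun ε hε =>
  ⟨0, 1, fun _ => κ, Gam.one, Gam.diag κ, by simpa using hε.le, by simp, by simp⟩

/-- Mal'cev's trick. -/
lemma commutator_mem_Kgrp [DecidableEq ι] (hg0 : g 0 = 1)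
    (hgen : Subgroup.closure (Set.range g) = ⊤) {i j : ι} (hij : a i ≠ a j) {I : Finset ι}
    {κ : H} (hκ : κ ∈ Kgrp a g i I) (h : H) : ⁅κ, h⁆ ∈ Kgrp a g i (insert j I) := by
  intro ε hε
  obtain ⟨D, X, Y, hX, hY, hD, hI, hi⟩ := (inv_mem hκ) (ε / 3) (by positivity)
  obtain ⟨E, Z, hZ, hE, hZj, hZi⟩ := mem_Zset (a := a) hg0 hgen hij (h⁻¹ * (X i)⁻¹ * X j)
    (ε / 3) (by positivity)
  have hz := hZ.mul_diag (X j)⁻¹
  refine ⟨D + E + D, _, _, (hX.mul hz).mul hY, (hY.mul hz).mul hX, ?_, ?_, ?_⟩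
  · rw [Matrix.trace_add, Matrix.trace_add]; linarith
  · intro k hk
    rcases Finset.mem_insert.mp hk with rfl | hk
    · simp [hZj]
    · simp [hI k hk]
  · have hYi : Y i = X i * κ⁻¹ := by rw [← hi]; group
    simp only [Pi.mul_apply, hZi, hYi, commutatorElement_def]
    group

lemma lcs_le_Kgrp [DecidableEq ι] (ha : Function.Injective a) (hg0 : g 0 = 1)
    (hgen : Subgroup.closure (Set.range g) = ⊤) (i : ι) (I : Finset ι) (hi : i ∉ I) :
    (⊤ : Subgroup H).lowerCentralSeries I.card ≤ Kgrp a g i I := by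
  induction I using Finset.induction_on with
  | empty => exact fun κ _ => mem_Kgrp_empty i κ
  | insert j I hj ih =>
    rw [Finset.card_insert_of_notMem hj, Subgroup.lowerCentralSeries_succ,
      Subgroup.commutator_le]
    intro κ hκ h _
    have hij : i ≠ j := fun e => hi (e ▸ Finset.mem_insert_self _ _)
    exact commutator_mem_Kgrp hg0 hgen (fun e => hij (ha e))
      (ih (fun h => hi (Finset.mem_insert_of_mem h)) hκ) h

/-- Every tuple of deep commutators is the quotient of two cheap elements of the same degree. -/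
lemma absorb [Fintype ι] [DecidableEq ι] (ha : Function.Injective a) (hg0 : g 0 = 1)
    (hgen : Subgroup.closure (Set.range g) = ⊤) (T : Finset ι) (κ : ι → H)
    (hκ : ∀ i, κ i ∈ (⊤ : Subgroup H).lowerCentralSeries (Fintype.card ι))
    (hT : ∀ i, i ∉ T → κ i = 1) (ε : ℝ) (hε : 0 < ε) :
    ∃ (D : Deg d) (U V : ι → H), Gam a g D U ∧ Gam a g D V ∧ D.trace ≤ ε ∧ V = U * κ := by
  induction T using Finset.induction_on generalizing κ ε with
  | empty =>
    have : κ = 1 := funext fun i => hT i (by simp)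
    exact ⟨0, 1, 1, Gam.one, Gam.one, by simpa using hε.le, by simp [this]⟩
  | insert i T hiT ih =>
    obtain ⟨D', U', V', hU', hV', hD', hUV'⟩ := ih (Function.update κ i 1)
      (fun j => by
        by_cases h : j = i
        · subst h; simp
        · simp [Function.update_of_ne h, hκ j])
      (fun j hj => by
        by_cases h : j = i
        · subst h; simp
        · rw [Function.update_of_ne h]; exact hT j (by simp [h, hj]))
      (ε / 2) (by positivity)
    have hmem : κ i ∈ Kgrp a g i (Finset.univ.erase i) := by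
      apply lcs_le_Kgrp ha hg0 hgen i _ (by simp)
      refine Subgroup.lowerCentralSeries_antitone ⊤ ?_ (hκ i)
      exact Finset.card_le_univ _
    obtain ⟨D, U, V, hU, hV, hD, hI, hi⟩ := (KP.conj hmem (U' i)⁻¹) (ε / 2) (by positivity)
    refine ⟨_, _, _, hU.mul hU', hV.mul hV', ?_, ?_⟩
    · rw [Matrix.trace_add]; linarith
    · ext j
      by_cases h : j = i
      · subst h
        have : V j = U j * ((U' j)⁻¹⁻¹ * κ j * (U' j)⁻¹) := by rw [← hi]; group
        simp only [Pi.mul_apply, hUV', Function.update_self, this]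
        group
      · simp only [Pi.mul_apply, hUV', Function.update_of_ne h,
          hI j (Finset.mem_erase.mpr ⟨h, Finset.mem_univ _⟩)]
        group

end Vale.Agent.P058
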