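import Vale.Agent.P058.Suff

/-!
# P058, part 9: the Ramsey property implies the tensor condition
-/

namespace Vale.Agent.P058

open scoped TensorProduct RealInnerProductSpace

variable {ι : Type} {d D : ℕ}

lemma inner_sub_eq_of_dist {a : ι → E d} {x : ι → E D}
    (h : ∀ i j, dist (x i) (x j) = dist (a i) (a j)) (i0 i j : ι) :
    ⟪x i - x i0, x j - x i0⟫ = ⟪a i - a i0, a j - a i0⟫ := by
  have h1 := norm_sub_sq_real (x i - x i0) (x j - x i0)
  have h2 := norm_sub_sq_real (a i - a i0) (a j - a i0)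
  rw [sub_sub_sub_cancel_right] at h1 h2
  simp only [← dist_eq_norm, h] at h1 h2
  linarith

lemma exists_ext [Fintype ι] (a : ι → E d) (x : ι → E D)
    (h : ∀ i j, dist (x i) (x j) = dist (a i) (a j)) (i0 : ι) :
    ∃ (L : E d →ₗ[ℝ] E D) (Q : E d →ₗ[ℝ] E d), (∀ i, L (a i - a i0) = x i - x i0) ∧
      (∀ i, Q (a i - a i0) = 0) ∧ ∀ y z, ⟪L y, L z⟫ + ⟪Q y, Q z⟫ = ⟪y, z⟫ := by
  classical
  let u := Fintype.linearCombination ℝ fun i => a i - a i0
  let v := Fintype.linearCombination ℝ fun i => x i - x i0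
  have huv : ∀ c, ‖v c‖ ^ 2 = ‖u c‖ ^ 2 := by
    intro c
    rw [← real_inner_self_eq_norm_sq, ← real_inner_self_eq_norm_sq]
    simp only [u, v, Fintype.linearCombination_apply, sum_inner, inner_sum, real_inner_smul_left,
      real_inner_smul_right, inner_sub_eq_of_dist h]
  obtain ⟨σ, hσ⟩ := u.rangeRestrict.exists_rightInverse_of_surjective u.range_rangeRestrict
  have hσ' : ∀ w : LinearMap.range u, u (σ w) = w := fun w =>
    congrArg Subtype.val (LinearMap.congr_fun hσ w)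
  have hmem : ∀ i, a i - a i0 ∈ LinearMap.range u := fun i =>
    ⟨Pi.single i 1, by simp [u]⟩
  let L : E d →ₗ[ℝ] E D := v ∘ₗ σ ∘ₗ (LinearMap.range u).orthogonalProjectionOnto.toLinearMap
  let Q : E d →ₗ[ℝ] E d := (LinearMap.range u)ᗮ.starProjection.toLinearMap
  have hn : ∀ y, ‖L y‖ ^ 2 + ‖Q y‖ ^ 2 = ‖y‖ ^ 2 := by
    intro y
    rw [(LinearMap.range u).norm_sq_eq_add_norm_sq_starProjection y]
    congr 1
    change ‖v (σ _)‖ ^ 2 = _
    rw [huv, hσ']; rfl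
  refine ⟨L, Q, fun i => ?_, fun i => Submodule.starProjection_orthogonal_apply_eq_zero (hmem i),
    fun y z => ?_⟩
  · have h1 : u (σ ((LinearMap.range u).orthogonalProjectionOnto (a i - a i0)) - Pi.single i 1)
        = 0 := by
      rw [map_sub, hσ', sub_eq_zero]
      have : u (Pi.single i 1) = a i - a i0 := by simp [u]
      rw [this]
      exact Submodule.starProjection_eq_self_iff.mpr (hmem i)
    have h2 := huv (σ ((LinearMap.range u).orthogonalProjectionOnto (a i - a i0)) -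
      Pi.single i 1)
    rw [h1, norm_zero, sq_eq_sq₀ (norm_nonneg _) le_rfl, norm_eq_zero, map_sub, sub_eq_zero] at h2
    have : v (Pi.single i 1) = x i - x i0 := by simp [v]
    rw [← this, ← h2]; rfl
  · have h1 := hn (y + z)
    rw [map_add, map_add, norm_add_sq_real, norm_add_sq_real, norm_add_sq_real] at h1
    linarith [hn y, hn z]

/-- The rational tensor square of a point. -/
noncomputable def Tq (x : E D) : ℝ ⊗[ℚ] ℝ := ∑ k, x k ⊗ₜ[ℚ] x k

lemma exists_matrix [Fintype ι] [Nonempty ι] (a : ι → E d) (x : ι → E D)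
    (h : ∀ i j, dist (x i) (x j) = dist (a i) (a j)) :
    ∃ P : Fin (d + 1) → Fin (d + 1) → ℝ ⊗[ℚ] ℝ,
      (∀ i, ∑ α, ∑ β, ((Fin.cons 1 (a i) : Fin (d + 1) → ℝ) α ⊗ₜ[ℚ]
        (Fin.cons 1 (a i) : Fin (d + 1) → ℝ) β) * P α β = Tq (x i)) ∧
      ∀ α β : Fin d, LinearMap.mul' ℚ ℝ (P α.succ β.succ) = if α = β then 1 else 0 := by
  obtain ⟨i0⟩ := ‹Nonempty ι›
  obtain ⟨L, Q, hL, hQ, hLQ⟩ := exists_ext a x h i0
  have hexp : ∀ {m : ℕ} (T : E d →ₗ[ℝ] E m) (y : E d) (k : Fin m),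
      ∑ α, y α * T (EuclideanSpace.single α 1) k = T y k := by
    intro m T y k
    have : y = ∑ α, y α • EuclideanSpace.single α (1 : ℝ) := by
      ext β; simp [Pi.single_apply]
    conv_rhs => rw [this]
    simp
  let X : Fin D → Fin (d + 1) → ℝ := fun k =>
    Fin.cons (x i0 k - L (a i0) k) fun α => L (EuclideanSpace.single α 1) k
  let Y : Fin d → Fin (d + 1) → ℝ := fun k =>
    Fin.cons (- Q (a i0) k) fun α => Q (EuclideanSpace.single α 1) k
  have hX : ∀ i k, ∑ α, (Fin.cons 1 (a i) : Fin (d + 1) → ℝ) α * X k α = x i k := by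
    intro i k
    have := congrArg (fun w : E D => w k) (hL i)
    simp only [map_sub, PiLp.sub_apply] at this
    simp only [X, Fin.sum_univ_succ, Fin.cons_zero, Fin.cons_succ, hexp]
    linarith
  have hY : ∀ i k, ∑ α, (Fin.cons 1 (a i) : Fin (d + 1) → ℝ) α * Y k α = 0 := by
    intro i k
    have := congrArg (fun w : E d => w k) (hQ i)
    simp only [map_sub, PiLp.sub_apply, PiLp.zero_apply] at this
    simp only [Y, Fin.sum_univ_succ, Fin.cons_zero, Fin.cons_succ, hexp]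
    linarith
  have key : ∀ {m : ℕ} (Z : Fin m → Fin (d + 1) → ℝ) (p : Fin (d + 1) → ℝ),
      ∑ α, ∑ β, (p α ⊗ₜ[ℚ] p β) * (∑ k, Z k α ⊗ₜ[ℚ] Z k β) =
        ∑ k, (∑ α, p α * Z k α) ⊗ₜ[ℚ] (∑ α, p α * Z k α) := by
    intro m Z p
    simp only [Finset.mul_sum, Algebra.TensorProduct.tmul_mul_tmul, TensorProduct.sum_tmul,
      TensorProduct.tmul_sum]
    rw [Finset.sum_comm]
    simp_rw [Finset.sum_comm (s := (Finset.univ : Finset (Fin (d + 1))))
      (t := (Finset.univ : Finset (Fin m)))]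
  refine ⟨fun α β => ∑ k, X k α ⊗ₜ[ℚ] X k β + ∑ k, Y k α ⊗ₜ[ℚ] Y k β, fun i => ?_,
    fun α β => ?_⟩
  · simp only [mul_add, Finset.sum_add_distrib, key, hX, hY, Tq]
    simp
  · have := hLQ (EuclideanSpace.single α 1) (EuclideanSpace.single β 1)
    simp only [PiLp.inner_apply] at this
    simp only [map_add, map_sum, LinearMap.mul'_apply, X, Y, Fin.cons_succ]
    simpa [mul_comm, Pi.single_apply, eq_comm] using this

/-- If the tensor condition fails, there is a linear certificate. -/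
lemma exists_certificate [Fintype ι] [Nonempty ι] (a : ι → E d) (h : ¬ TCR fun i α => a i α) :
    ∃ φ : ι → (ℝ ⊗[ℚ] ℝ →ₗ[ℚ] ℚ), (∀ τ, ∑ i, φ i τ = 0) ∧
      ∀ (D : ℕ) (x : ι → E D), (∀ i j, dist (x i) (x j) = dist (a i) (a j)) →
        ∑ i, φ i (Tq (x i)) = 1 := by
  classical
  let p : ι → Fin (d + 1) → ℝ := fun i => Fin.cons 1 (a i)
  let Ψ : (Fin (d + 1) → Fin (d + 1) → ℝ ⊗[ℚ] ℝ) →ₗ[ℚ] (ι → ℝ ⊗[ℚ] ℝ) × (Fin d → Fin d → ℝ) :=
    { toFun := fun P => (fun i => ∑ α, ∑ β, (p i α ⊗ₜ[ℚ] p i β) * P α β,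
        fun α β => LinearMap.mul' ℚ ℝ (P α.succ β.succ))
      map_add' := fun P P' => by
        ext <;> simp [mul_add, Finset.sum_add_distrib]
      map_smul' := fun r P => by
        ext <;> simp [Finset.smul_sum] }
  let v0 : (ι → ℝ ⊗[ℚ] ℝ) × (Fin d → Fin d → ℝ) := (0, fun α β => if α = β then 1 else 0)
  have hv0 : v0 ∉ LinearMap.range Ψ := by
    rintro ⟨P, hP⟩
    exact h ⟨P, fun i => congrFun (congrArg Prod.fst hP) i,
      fun α β => congrFun (congrFun (congrArg Prod.snd hP) α) β⟩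
  obtain ⟨f, hf, hf0⟩ := Submodule.exists_dual_map_eq_bot_of_notMem hv0 inferInstance
  have hfΨ : ∀ P, f (Ψ P) = 0 := fun P => by
    have : f (Ψ P) ∈ (LinearMap.range Ψ).map f := Submodule.mem_map_of_mem ⟨P, rfl⟩
    rwa [hf0] at this
  have hsum : ∀ w : ι → ℝ ⊗[ℚ] ℝ, ∑ i, f (Pi.single i (w i), 0) = f (w, 0) := by
    intro w
    rw [← map_sum]
    congr 1
    rw [Prod.ext_iff, Prod.fst_sum, Prod.snd_sum]
    exact ⟨Finset.univ_sum_single w, by simp⟩
  refine ⟨fun i => (-(f v0)⁻¹) • (f ∘ₗ LinearMap.inl ℚ _ _ ∘ₗ LinearMap.single ℚ _ i),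
    fun τ => ?_, fun D x hx => ?_⟩
  · simp only [LinearMap.smul_apply, LinearMap.comp_apply, LinearMap.inl_apply,
      LinearMap.single_apply, ← Finset.smul_sum]
    rw [hsum fun _ => τ]
    have := hfΨ (Pi.single 0 (Pi.single 0 τ))
    have e : Ψ (Pi.single 0 (Pi.single 0 τ)) = (fun _ => τ, 0) := by
      ext i
      · simp [Ψ, p, Fin.sum_univ_succ, ← Algebra.TensorProduct.one_def]
      · simp [Ψ]
    rw [e] at this
    rw [this, smul_zero]
  · simp only [LinearMap.smul_apply, LinearMap.comp_apply, LinearMap.inl_apply,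
      LinearMap.single_apply, ← Finset.smul_sum]
    rw [hsum fun i => Tq (x i)]
    obtain ⟨P, hP, hm⟩ := exists_matrix a x hx
    have := hfΨ P
    have e : Ψ P = (fun i => Tq (x i), 0) + v0 := by
      ext i
      · simpa [Ψ, p, v0] using hP i
      · simp [Ψ, v0, hm]
    rw [e, map_add] at this
    rw [eq_neg_of_add_eq_zero_left this, smul_eq_mul]
    field_simp

theorem IsRamsey.tcr {A : Finset (E d)} (hA : A.Nonempty) (h : IsRamsey A) : TCR (pts A) := by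
  classical
  by_contra hcon
  have hne : Nonempty A := hA.to_subtype
  obtain ⟨φ, hφ0, hφ⟩ := exists_certificate (fun i : A => i.1) hcon
  set n : ℕ := Fintype.card A with hn
  have hn0 : 0 < n := Fintype.card_pos
  have : NeZero (2 * n) := ⟨by omega⟩
  let κ := A → ZMod (2 * n)
  obtain ⟨e⟩ : Nonempty (κ ↪ Fin (Fintype.card κ + 2)) :=
    Function.Embedding.nonempty_of_card_le (by simp)
  obtain ⟨D, _, hD⟩ := h (Fintype.card κ + 2) (by omega)
  obtain ⟨_, ⟨f, hf, rfl⟩, k, hk⟩ :=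
    hD fun y => e fun i => ((⌊(n : ℚ) * φ i (Tq y)⌋ : ℤ) : ZMod (2 * n))
  obtain ⟨i0⟩ := hne
  have h1 := hφ D (fun i => f i.1) fun i j => hf _ i.2 _ j.2
  have h0 := hφ0 (Tq (f i0.1))
  have hc : ∀ i : A, ((⌊(n : ℚ) * φ i (Tq (f i.1))⌋ : ℤ) : ZMod (2 * n)) =
      ((⌊(n : ℚ) * φ i (Tq (f i0.1))⌋ : ℤ) : ZMod (2 * n)) := fun i =>
    congrFun (e.injective ((hk _ ⟨i.1, i.2, rfl⟩).trans (hk _ ⟨i0.1, i0.2, rfl⟩).symm)) i
  set S1 : ℤ := ∑ i : A, ⌊(n : ℚ) * φ i (Tq (f i.1))⌋ with hS1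
  set S0 : ℤ := ∑ i : A, ⌊(n : ℚ) * φ i (Tq (f i0.1))⌋ with hS0
  have hdvd : ((2 * n : ℕ) : ℤ) ∣ S1 - S0 := by
    rw [← ZMod.intCast_eq_intCast_iff_dvd_sub, hS1, hS0]
    push_cast
    exact Finset.sum_congr rfl fun i _ => (hc i).symm
  have hb : ∀ w : A → ℚ, ((∑ i, ⌊w i⌋ : ℤ) : ℚ) ≤ ∑ i, w i ∧
      ∑ i, w i < ((∑ i, ⌊w i⌋ : ℤ) : ℚ) + n := by
    intro w
    push_cast
    refine ⟨Finset.sum_le_sum fun i _ => Int.floor_le _, ?_⟩
    have : ∑ i, w i < ∑ i : A, ((⌊w i⌋ : ℚ) + 1) :=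
      Finset.sum_lt_sum_of_nonempty ⟨i0, Finset.mem_univ _⟩ fun i _ => Int.lt_floor_add_one _
    simpa [Finset.sum_add_distrib, hn] using this
  have b1 := hb fun i => (n : ℚ) * φ i (Tq (f i.1))
  have b0 := hb fun i => (n : ℚ) * φ i (Tq (f i0.1))
  rw [← Finset.mul_sum, h1, ← hS1] at b1
  rw [← Finset.mul_sum, h0, ← hS0] at b0
  have c1 : (0 : ℤ) < S1 - S0 := by
    have : (0 : ℚ) < (S1 : ℚ) - S0 := by linarith [b1.2, b0.1]
    exact_mod_cast this
  have c2 : S1 - S0 < ((2 * n : ℕ) : ℤ) := by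
    have : (S1 : ℚ) - S0 < 2 * n := by linarith [b1.1, b0.2]
    exact_mod_cast this
  exact absurd (Int.le_of_dvd c1 hdvd) (not_le.mpr c2)

end Vale.Agent.P058
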