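import Vale.Agent.P058.Boost

/-!
# P058, part 4: the commutative stage, in a ring generated by exponentials
-/

namespace Vale.Agent.P058

open Matrix

variable {ι : Type} {d : ℕ}

/-- Additive version of `Gam`. -/
inductive GamA {M : Type} [AddCommGroup M] (a : ι → Fin d → ℝ) (g : ℝ → M) :
    Deg d → (ι → M) → Prop
  | diag (h : M) : GamA a g 0 (fun _ => h)
  | letter (l : W d) : GamA a g (sq l.2) (fun i => g (ev a i l))
  | add {D D' : Deg d} {x y : ι → M} : GamA a g D x → GamA a g D' y → GamA a g (D + D') (x + y)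

section General

variable {M : Type} [AddCommGroup M] {a : ι → Fin d → ℝ} {g : ℝ → M}

lemma GamA.of_eq {D D' : Deg d} {x y : ι → M} (h : GamA a g D x) (hD : D = D') (hx : x = y) :
    GamA a g D' y := hD ▸ hx ▸ h

lemma GamA.zero : GamA a g 0 (0 : ι → M) := GamA.diag 0

lemma GamA.trace_nonneg {D : Deg d} {x : ι → M} (h : GamA a g D x) : 0 ≤ D.trace := by
  induction h with
  | diag h => simp
  | letter l => exact trace_sq_nonneg _
  | add _ _ ih1 ih2 => rw [Matrix.trace_add]; positivity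

lemma GamA.nsmul {D : Deg d} {x : ι → M} (h : GamA a g D x) (m : ℕ) :
    GamA a g ((m : ℝ) • D) (m • x) := by
  induction m with
  | zero => simpa using GamA.zero
  | succ m ih =>
    refine (ih.add h).of_eq ?_ (succ_nsmul _ _).symm
    rw [Nat.cast_succ, add_smul, one_smul]

lemma GamA.sum {κ : Type} (s : Finset κ) (D : κ → Deg d) (x : κ → ι → M)
    (h : ∀ k ∈ s, GamA a g (D k) (x k)) : GamA a g (∑ k ∈ s, D k) (∑ k ∈ s, x k) := by
  classical
  induction s using Finset.induction_on with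
  | empty => simpa using GamA.zero
  | insert k s hk ih =>
    rw [Finset.sum_insert hk, Finset.sum_insert hk]
    exact (h k (Finset.mem_insert_self _ _)).add
      (ih fun j hj => h j (Finset.mem_insert_of_mem hj))

lemma GamA.lift {M' : Type} [AddCommGroup M'] (f : M →+ M') (hf : Function.Surjective f)
    {D : Deg d} {y : ι → M'} (h : GamA a (fun t => f (g t)) D y) :
    ∃ x : ι → M, GamA a g D x ∧ ∀ i, f (x i) = y i := by
  induction h with
  | diag h => obtain ⟨z, rfl⟩ := hf h; exact ⟨_, GamA.diag z, fun _ => rfl⟩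
  | letter l => exact ⟨_, GamA.letter l, fun _ => rfl⟩
  | add _ _ ih1 ih2 =>
    obtain ⟨x1, h1, e1⟩ := ih1
    obtain ⟨x2, h2, e2⟩ := ih2
    exact ⟨_, h1.add h2, fun i => by simp [e1, e2]⟩

end General

/-- A commutative ring additively generated by a family of exponentials, with dilations. -/
structure ExpRing (R : Type) [CommRing R] (x : ℝ → R) : Prop where
  zero : x 0 = 1
  add : ∀ s t, x (s + t) = x s * x t
  span : AddSubgroup.closure (Set.range x) = ⊤
  dil : ∀ k : ℕ, ∃ θ : R →+* R, ∀ t, θ (x t) = x (k * t)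

variable {R : Type} [CommRing R] {x : ℝ → R} {a : ι → Fin d → ℝ}

/-- The augmentation ideal. -/
def aug (x : ℝ → R) : Ideal R := Ideal.span (Set.range fun t => x t - 1)

lemma sub_one_mem_aug (t : ℝ) : x t - 1 ∈ aug x := Ideal.subset_span ⟨t, rfl⟩

lemma ExpRing.pow (hx : ExpRing R x) (t : ℝ) (k : ℕ) : x (k * t) = x t ^ k := by
  induction k with
  | zero => simp [hx.zero]
  | succ k ih => rw [Nat.cast_succ, add_mul, one_mul, hx.add, ih, pow_succ]

lemma ExpRing.induction (hx : ExpRing R x) {p : R → Prop} (h1 : ∀ t, p (x t)) (h0 : p 0)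
    (hadd : ∀ r s, p r → p s → p (r + s)) (hneg : ∀ r, p r → p (-r)) (r : R) : p r := by
  have hr : r ∈ AddSubgroup.closure (Set.range x) := hx.span ▸ AddSubgroup.mem_top r
  induction hr using AddSubgroup.closure_induction with
  | mem z hz => obtain ⟨t, rfl⟩ := hz; exact h1 t
  | zero => exact h0
  | add r s _ _ hr hs => exact hadd r s hr hs
  | neg r _ hr => exact hneg r hr

lemma GamA.translate (hx : ExpRing R x) (c : ℝ) {D : Deg d} {p : ι → R} (h : GamA a x D p) :
    GamA a x D (x c • p) := by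
  induction h with
  | diag h => exact GamA.diag (x c * h)
  | letter l =>
    refine (GamA.letter ((c, 0) + l)).of_eq (by simp) ?_
    ext i; simp [ev_add, ev_const, hx.add]
  | add _ _ ih1 ih2 => exact (ih1.add ih2).of_eq rfl (smul_add _ _ _).symm

lemma GamA.dilate {k : ℕ} (θ : R →+* R) (hθ : ∀ t, θ (x t) = x (k * t)) {D : Deg d} {p : ι → R}
    (h : GamA a x D p) : GamA a x (((k : ℝ) ^ 2) • D) (fun i => θ (p i)) := by
  induction h with
  | diag h => simpa using GamA.diag (θ h)
  | letter l =>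
    refine (GamA.letter ((k : ℝ) • l)).of_eq (by simp [sq_smul]) ?_
    ext i; simp [ev_smul, hθ]
  | add _ _ ih1 ih2 => exact (ih1.add ih2).of_eq (smul_add _ _ _).symm (by ext i; simp)

lemma dil_pow (hx : ExpRing R x) {k : ℕ} (θ : R →+* R) (hθ : ∀ t, θ (x t) = x (k * t)) (j : ℕ)
    (y : R) (hy : y ∈ aug x ^ j) : θ y - (k : R) ^ j * y ∈ aug x ^ (j + 1) := by
  have h0 : ∀ r, θ r - r ∈ aug x := by
    intro r
    induction r using hx.induction with
    | h1 t =>
      have : θ (x t) - x t = (x (k * t) - 1) - (x t - 1) := by rw [hθ]; ring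
      rw [this]; exact sub_mem (sub_one_mem_aug _) (sub_one_mem_aug _)
    | h0 => simp
    | hadd r s hr hs =>
      have : θ (r + s) - (r + s) = (θ r - r) + (θ s - s) := by rw [map_add]; ring
      rw [this]; exact add_mem hr hs
    | hneg r hr =>
      have : θ (-r) - -r = -(θ r - r) := by rw [map_neg]; ring
      rw [this]; exact neg_mem hr
  have hgeom : ∀ (t : ℝ) (n : ℕ), x t ^ n - 1 - n * (x t - 1) ∈ aug x * aug x := by
    intro t n
    induction n with
    | zero => simp
    | succ n ih =>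
      have : x t ^ (n + 1) - 1 - ((n + 1 : ℕ) : R) * (x t - 1) =
          (x t ^ n - 1 - n * (x t - 1)) + (x (n * t) - 1) * (x t - 1) := by
        rw [hx.pow]; push_cast; ring
      rw [this]
      exact add_mem ih (Ideal.mul_mem_mul (sub_one_mem_aug _) (sub_one_mem_aug _))
  have h1 : ∀ z ∈ aug x, θ z - (k : R) * z ∈ aug x * aug x ∧ θ z ∈ aug x := by
    intro z hz
    induction hz using Submodule.span_induction with
    | mem z hz =>
      obtain ⟨t, rfl⟩ := hz
      simp only [map_sub, map_one, hθ]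
      exact ⟨by rw [hx.pow]; exact hgeom t k, sub_one_mem_aug _⟩
    | zero => simp
    | add z w _ _ hz hw =>
      have : θ (z + w) - (k : R) * (z + w) = (θ z - k * z) + (θ w - k * w) := by
        rw [map_add]; ring
      rw [this, map_add]; exact ⟨add_mem hz.1 hw.1, add_mem hz.2 hw.2⟩
    | smul r z _ hz =>
      have : θ (r • z) - (k : R) * (r • z) = (θ r - r) * θ z + r * (θ z - k * z) := by
        rw [smul_eq_mul, map_mul]; ring
      rw [this, smul_eq_mul, map_mul]
      exact ⟨add_mem (Ideal.mul_mem_mul (h0 r) hz.2) (Ideal.mul_mem_left _ _ hz.1),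
        Ideal.mul_mem_left _ _ hz.2⟩
  induction j generalizing y with
  | zero => simpa using h0 y
  | succ j ih =>
    rw [pow_succ] at hy
    refine Submodule.mul_induction_on hy ?_ ?_
    · intro m hm n hn
      have : θ (m * n) - (k : R) ^ (j + 1) * (m * n) =
          (θ m - (k : R) ^ j * m) * θ n + (k : R) ^ j * (m * (θ n - k * n)) := by
        rw [map_mul]; ring
      rw [this]
      refine add_mem ?_ (Ideal.mul_mem_left _ _ ?_)
      · rw [pow_succ]; exact Ideal.mul_mem_mul (ih m hm) (h1 n hn).2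
      · rw [pow_succ, pow_succ, mul_assoc]; exact Ideal.mul_mem_mul hm (h1 n hn).1
    · intro z w hz hw
      have : θ (z + w) - (k : R) ^ (j + 1) * (z + w) =
          (θ z - (k : R) ^ (j + 1) * z) + (θ w - (k : R) ^ (j + 1) * w) := by
        rw [map_add]; ring
      rw [this]; exact add_mem hz hw

/-- Additive version of `Pr`. -/
def PrA (a : ι → Fin d → ℝ) (x : ℝ → R) (J : Ideal R) : Prop :=
  ∀ ε : ℝ, 0 < ε → ∃ (D : Deg d) (u : ℝ) (p q : ι → R), 0 < u ∧ GamA a x (D + u • 1) p ∧
    GamA a x D q ∧ D.trace ≤ ε * u ∧ ∀ i, p i - q i ∈ J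

lemma PrA.boost (hx : ExpRing R x) {j : ℕ} (h : PrA a x (aug x ^ (j + 3))) :
    PrA a x (aug x ^ (j + 3 + 1)) := by
  intro ε hε
  obtain ⟨D, u, p, q, hu, hp, hq, hD, hpq⟩ := h (ε / 6) (by positivity)
  obtain ⟨k, hk⟩ := exists_nat_ge (2 + 2 * (d : ℝ) / ε)
  have hdε : 0 ≤ 2 * (d : ℝ) / ε := by positivity
  have hk2 : (2 : ℝ) ≤ k := by linarith
  obtain ⟨θ, hθ⟩ := hx.dil k
  set m : ℕ := k ^ (j + 3) with hm
  have hk0 : (0 : ℝ) < (k : ℝ) ^ 2 := by positivity
  have hmk : (k : ℝ) * (k : ℝ) ^ 2 ≤ m := by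
    rw [hm]; push_cast
    rw [pow_add]
    have h1 : (1 : ℝ) ≤ (k : ℝ) ^ j := one_le_pow₀ (by linarith)
    have h2 : (0 : ℝ) ≤ (k : ℝ) ^ 3 := by positivity
    nlinarith
  refine ⟨((k : ℝ) ^ 2) • (D + u • 1) + (m : ℝ) • D, (m - (k : ℝ) ^ 2) * u, _, _, ?_,
    ((hq.dilate θ hθ).add (hp.nsmul m)).of_eq ?_ rfl, (hp.dilate θ hθ).add (hq.nsmul m),
    ?_, ?_⟩
  · apply mul_pos _ hu; nlinarith
  · simp only [smul_add, smul_smul, sub_mul, sub_smul]; abel
  · simp only [Matrix.trace_add, Matrix.trace_smul, Matrix.trace_one, Fintype.card_fin,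
      smul_eq_mul]
    exact boost_num hε hu hk0 (by nlinarith) (by nlinarith) hD
  · intro i
    have := neg_mem (dil_pow hx θ hθ (j + 3) _ (hpq i))
    convert this using 1
    simp only [Pi.add_apply, Pi.smul_apply]
    simp only [nsmul_eq_mul, hm, map_sub]
    push_cast; ring

lemma PrA.all (hx : ExpRing R x) (h : PrA a x (aug x ^ 3)) (j : ℕ) :
    PrA a x (aug x ^ (j + 3)) := by
  induction j with
  | zero => simpa using h
  | succ j ih => exact ih.boost hx

/-- Differences of elements of the graded monoid. -/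
def Bmod (a : ι → Fin d → ℝ) (hx : ExpRing R x) : Submodule R (ι → R) where
  carrier := {b | ∃ (D D' : Deg d) (p q : ι → R), GamA a x D p ∧ GamA a x D' q ∧ b = p - q}
  zero_mem' := ⟨0, 0, 0, 0, GamA.zero, GamA.zero, by simp⟩
  add_mem' := by
    rintro _ _ ⟨D1, D1', p1, q1, h1, h1', rfl⟩ ⟨D2, D2', p2, q2, h2, h2', rfl⟩
    exact ⟨_, _, _, _, h1.add h2, h1'.add h2', by abel⟩
  smul_mem' := by
    rintro r _ ⟨D, D', p, q, h, h', rfl⟩
    induction r using hx.induction with
    | h1 t => exact ⟨_, _, _, _, h.translate hx t, h'.translate hx t, smul_sub _ _ _⟩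
    | h0 => exact ⟨0, 0, 0, 0, GamA.zero, GamA.zero, by simp⟩
    | hadd r s hr hs =>
      obtain ⟨D1, D1', p1, q1, h1, h1', e1⟩ := hr
      obtain ⟨D2, D2', p2, q2, h2, h2', e2⟩ := hs
      exact ⟨_, _, _, _, h1.add h2, h1'.add h2', by rw [add_smul, e1, e2]; abel⟩
    | hneg r hr =>
      obtain ⟨D1, D1', p1, q1, h1, h1', e1⟩ := hr
      exact ⟨_, _, _, _, h1', h1, by rw [neg_smul, e1]; abel⟩

lemma GamA.mem_Bmod (hx : ExpRing R x) {D : Deg d} {p : ι → R} (h : GamA a x D p) :
    p ∈ Bmod a hx := ⟨_, _, _, _, h, GamA.zero, by simp⟩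

lemma mul_mem_Bmod (hx : ExpRing R x) {b b' : ι → R} (hb : b ∈ Bmod a hx) (hb' : b' ∈ Bmod a hx) :
    b * b' ∈ Bmod a hx := by
  have key : ∀ {D : Deg d} {p : ι → R}, GamA a x D p → ∀ {D' : Deg d} {p' : ι → R},
      GamA a x D' p' → p * p' ∈ Bmod a hx := by
    intro D p h
    induction h with
    | diag r => intro D' p' h'; exact Submodule.smul_mem _ r (h'.mem_Bmod hx)
    | letter l =>
      intro D' p' h'
      induction h' with
      | diag r =>
        have := Submodule.smul_mem _ r ((GamA.letter (a := a) (g := x) l).mem_Bmod hx)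
        convert this using 1
        ext i; simp [mul_comm]
      | letter l' =>
        have := (GamA.letter (a := a) (g := x) (l + l')).mem_Bmod hx
        convert this using 1
        ext i; simp [ev_add, hx.add]
      | add _ _ ih1 ih2 => rw [mul_add]; exact add_mem ih1 ih2
    | add _ _ ih1 ih2 => intro D' p' h'; rw [add_mul]; exact add_mem (ih1 h') (ih2 h')
  obtain ⟨D1, D1', p1, q1, h1, h1', rfl⟩ := hb
  obtain ⟨D2, D2', p2, q2, h2, h2', rfl⟩ := hb'
  rw [sub_mul, mul_sub, mul_sub]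
  exact sub_mem (sub_mem (key h1 h2) (key h1 h2')) (sub_mem (key h1' h2) (key h1' h2'))

/-- Values in coordinate `i` of elements of `Bmod` vanishing on `I`. -/
def Bid (a : ι → Fin d → ℝ) (hx : ExpRing R x) (i : ι) (I : Finset ι) : Ideal R where
  carrier := {y | ∃ b ∈ Bmod a hx, b i = y ∧ ∀ j ∈ I, b j = 0}
  zero_mem' := ⟨0, zero_mem _, rfl, fun _ _ => rfl⟩
  add_mem' := by
    rintro _ _ ⟨b, hb, rfl, h⟩ ⟨b', hb', rfl, h'⟩
    exact ⟨b + b', add_mem hb hb', rfl, fun j hj => by simp [h j hj, h' j hj]⟩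
  smul_mem' := by
    rintro r _ ⟨b, hb, rfl, h⟩
    exact ⟨r • b, Submodule.smul_mem _ r hb, rfl, fun j hj => by simp [h j hj]⟩

lemma aug_pow_le_Bid [DecidableEq ι] (ha : Function.Injective a) (hx : ExpRing R x) (i : ι)
    (I : Finset ι) (hi : i ∉ I) : aug x ^ I.card ≤ Bid a hx i I := by
  induction I using Finset.induction_on with
  | empty =>
    intro y _
    exact ⟨fun _ => y, (GamA.diag y).mem_Bmod hx, rfl, by simp⟩
  | insert j I hj ih =>
    have hij : i ≠ j := fun e => hi (e ▸ Finset.mem_insert_self _ _)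
    have h1 : aug x ≤ Bid a hx i {j} := by
      rw [aug, Ideal.span_le]
      rintro _ ⟨t, rfl⟩
      obtain ⟨C, _, hC⟩ := exists_letter a (fun e => hij (ha e))
      obtain ⟨l, hl1, hl2, _⟩ := hC t 0
      refine ⟨(fun i => x (ev a i l)) - fun _ => 1,
        sub_mem ((GamA.letter l).mem_Bmod hx) ((GamA.diag 1).mem_Bmod hx), by simp [hl1], ?_⟩
      simp [hl2, hx.zero]
    rw [Finset.card_insert_of_notMem hj, pow_succ, Ideal.mul_le]
    intro r hr s hs
    obtain ⟨b, hb, rfl, h⟩ := ih (fun h => hi (Finset.mem_insert_of_mem h)) hr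
    obtain ⟨b', hb', rfl, h'⟩ := h1 hs
    refine ⟨b * b', mul_mem_Bmod hx hb hb', rfl, fun k hk => ?_⟩
    rcases Finset.mem_insert.mp hk with rfl | hk
    · simp [h' k (Finset.mem_singleton_self _)]
    · simp [h k hk]

/-- The set of generators removed by averaging. -/
def Gset (a : ι → Fin d → ℝ) (hx : ExpRing R x) : Set (ι → R) :=
  {v | ∃ c : ℝ, ∃ b ∈ Bmod a hx, v = (x c - 1) • b}

lemma mem_span_Gset [Fintype ι] (ha : Function.Injective a) (hx : ExpRing R x) (v : ι → R)
    (hv : ∀ i, v i ∈ aug x ^ (Fintype.card ι + 1)) : v ∈ Submodule.span R (Gset a hx) := by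
  classical
  rw [← Finset.univ_sum_single v]
  refine Submodule.sum_mem _ fun i _ => ?_
  have h1 : v i ∈ aug x * Bid a hx i (Finset.univ.erase i) := by
    have := hv i
    rw [pow_succ'] at this
    refine Ideal.mul_mono_right ?_ this
    exact (Ideal.pow_le_pow_right (Finset.card_le_univ _)).trans
      (aug_pow_le_Bid ha hx i _ (by simp))
  refine Submodule.mul_induction_on h1 ?_ ?_
  · rintro s hs _ ⟨b, hb, rfl, h⟩
    have e : (Pi.single i (s * b i) : ι → R) = s • b := by
      ext j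
      by_cases hj : j = i
      · subst hj; simp
      · simp [hj, h j (Finset.mem_erase.mpr ⟨hj, Finset.mem_univ _⟩)]
    rw [e]
    clear e
    induction hs using Submodule.span_induction with
    | mem s hs => obtain ⟨c, rfl⟩ := hs; exact Submodule.subset_span ⟨c, b, hb, rfl⟩
    | zero => simp
    | add s s' _ _ h1 h2 => rw [add_smul]; exact add_mem h1 h2
    | smul r s _ h1 => rw [smul_assoc]; exact Submodule.smul_mem _ r h1
  · intro y z hy hz
    rw [Pi.single_add]; exact add_mem hy hz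

/-- Quantitative version of `PrA` for a submodule. -/
def QA (a : ι → Fin d → ℝ) (x : ℝ → R) (ε : ℝ) (J : Submodule R (ι → R)) : Prop :=
  ∃ (D : Deg d) (u : ℝ) (p q : ι → R), 0 < u ∧ GamA a x (D + u • 1) p ∧
    GamA a x D q ∧ D.trace < ε * u ∧ p - q ∈ J

lemma GamA.average (hx : ExpRing R x) (c : ℝ) {D : Deg d} {p : ι → R} (h : GamA a x D p)
    (L : ℕ) : GamA a x ((L : ℝ) • D) ((∑ k ∈ Finset.range L, x c ^ k) • p) := by
  have := GamA.sum (a := a) (g := x) (Finset.range L) (fun _ => D) (fun k => x (k * c) • p)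
    (fun k _ => h.translate hx _)
  refine this.of_eq (by simp [Nat.cast_smul_eq_nsmul]) ?_
  rw [Finset.sum_smul]; simp [hx.pow]

lemma QA.folner (hx : ExpRing R x) {ε : ℝ} {J : Submodule R (ι → R)} {v : ι → R}
    (hv : v ∈ Gset a hx) (h : QA a x ε (Submodule.span R {v} ⊔ J)) : QA a x ε J := by
  obtain ⟨D, u, p, q, hu, hp, hq, hD, hpq⟩ := h
  obtain ⟨c, b, hb, rfl⟩ := hv
  obtain ⟨y, hy, z, hz, hyz⟩ := Submodule.mem_sup.mp hpq
  obtain ⟨r, rfl⟩ := Submodule.mem_span_singleton.mp hy
  obtain ⟨D1, D2, p1, q1, h1, h2, e⟩ := Submodule.smul_mem _ r hb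
  have hpos : 0 < ε * u - D.trace := by linarith
  obtain ⟨L, hL⟩ := exists_nat_gt ((D1 + D2).trace / (ε * u - D.trace))
  have hnn : 0 ≤ (D1 + D2).trace := (h1.add h2).trace_nonneg
  have hL0 : (0 : ℝ) < L := lt_of_le_of_lt (by positivity) hL
  rw [div_lt_iff₀ hpos] at hL
  refine ⟨(L : ℝ) • D + (D1 + D2), L * u, _, _, by positivity,
    ((hp.average hx c L).add (h1.add (h2.translate hx (L * c)))).of_eq ?_ rfl,
    (hq.average hx c L).add ((h1.translate hx (L * c)).add h2), ?_, ?_⟩
  · rw [smul_add, smul_smul]; abel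
  · rw [Matrix.trace_add, Matrix.trace_smul, smul_eq_mul]; nlinarith
  · have hg := geom_sum_mul (x c) L
    have e2 : p - q = (x c - 1) • (p1 - q1) + z := by rw [← hyz, ← e, smul_comm]
    have : (∑ k ∈ Finset.range L, x c ^ k) • p + (p1 + x (L * c) • q1) -
        ((∑ k ∈ Finset.range L, x c ^ k) • q + (x (L * c) • p1 + q1)) =
        (∑ k ∈ Finset.range L, x c ^ k) • z := by
      have e3 : p = q + ((x c - 1) • (p1 - q1) + z) := by rw [← e2]; abel
      rw [e3, smul_add, smul_add, smul_smul, hg, hx.pow]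
      module
    rw [this]
    exact Submodule.smul_mem _ _ hz

theorem PrA.bot [Fintype ι] (ha : Function.Injective a) (hx : ExpRing R x)
    (h : PrA a x (aug x ^ 3)) : PrA a x ⊥ := by
  classical
  intro ε hε
  obtain ⟨D, u, p, q, hu, hp, hq, hD, hpq⟩ := h.all hx (Fintype.card ι) (ε / 2) (by positivity)
  have hmem := mem_span_Gset ha hx (p - q) fun i =>
    Ideal.pow_le_pow_right (by omega) (hpq i)
  obtain ⟨T, hT, hmemT⟩ := Submodule.mem_span_finite_of_mem_span hmem
  have h0 : QA a x ε (Submodule.span R (T : Set (ι → R))) :=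
    ⟨D, u, p, q, hu, hp, hq, by nlinarith, hmemT⟩
  have key : ∀ T : Finset (ι → R), (T : Set (ι → R)) ⊆ Gset a hx →
      QA a x ε (Submodule.span R (T : Set (ι → R))) → QA a x ε ⊥ := by
    intro T
    induction T using Finset.induction_on with
    | empty => intro _ h; simpa using h
    | insert v T _ ih =>
      intro hT h
      rw [Finset.coe_insert, Set.insert_subset_iff] at hT
      rw [Finset.coe_insert, Submodule.span_insert] at h
      exact ih hT.2 (h.folner hx hT.1)
  obtain ⟨D', u', p', q', hu', hp', hq', hD', hpq'⟩ := key T hT h0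
  refine ⟨D', u', p', q', hu', hp', hq', hD'.le, fun i => ?_⟩
  rw [Submodule.mem_bot] at hpq'
  simpa using congrFun hpq' i

end Vale.Agent.P058
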