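import Vale.Agent.P058.Field

/-!
# P058, part 11: subtransitive sets are Ramsey; a Ramsey kite that is not subtransitive
-/

namespace Vale.Agent.P058

open scoped TensorProduct Polynomial

variable {d n : ℕ}

/-- The distance preserving permutations of a finite set. -/
def isoGrp (X : Finset (E n)) : Subgroup (Equiv.Perm X) where
  carrier := {π | ∀ x y : X, dist (π x).1 (π y).1 = dist x.1 y.1}
  one_mem' := fun _ _ => rfl
  mul_mem' := fun {π ρ} hπ hρ x y => (hπ _ _).trans (hρ x y)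
  inv_mem' := fun {π} hπ x y => by
    have := hπ (π⁻¹ x) (π⁻¹ y)
    simpa using this.symm

lemma IsTransitive.sum_eq {X : Finset (E n)} (hX : IsTransitive X) [Fintype (isoGrp X)]
    {M : Type} [AddCommMonoid M] (F : X → M) (x y : X) :
    ∑ π : isoGrp X, F (π.1 x) = ∑ π : isoGrp X, F (π.1 y) := by
  obtain ⟨g, hg, hxy⟩ := hX x.1 x.2 y.1 y.2
  have hmem : ∀ z : E n, z ∈ X ↔ g.toEquiv z ∈ X := by
    intro z
    constructor
    · intro hz
      have : g z ∈ g '' (X : Set (E n)) := ⟨z, hz, rfl⟩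
      rwa [hg] at this
    · intro hz
      have : g z ∈ g '' (X : Set (E n)) := by rw [hg]; exact hz
      obtain ⟨w, hw, e⟩ := this
      rwa [← g.injective e]
  let ρ : isoGrp X := ⟨g.toEquiv.subtypeEquiv hmem, fun u v => g.dist_eq _ _⟩
  have hρ : ρ.1 x = y := Subtype.ext hxy
  rw [← hρ]
  exact (Fintype.sum_equiv (Equiv.mulRight ρ) _ _ fun π => rfl).symm

theorem IsSubtransitive.isRamsey {A : Finset (E d)} (hA : A.Nonempty) (h : IsSubtransitive A) :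
    IsRamsey A := by
  classical
  apply TCR.isRamsey
  by_contra hcon
  have hne : Nonempty A := hA.to_subtype
  obtain ⟨φ, hφ0, hφ⟩ := exists_certificate (fun i : A => i.1) hcon
  obtain ⟨n, X, hX, _, hB, f, hf, rfl⟩ := h
  let j : A → X := fun i => ⟨f i.1, hB ⟨i.1, i.2, rfl⟩⟩
  obtain ⟨i0⟩ := hne
  have h1 : ∑ π : isoGrp X, ∑ i : A, φ i (Tq (π.1 (j i)).1) = ∑ _π : isoGrp X, (1 : ℚ) :=
    Finset.sum_congr rfl fun π _ => hφ n (fun i => (π.1 (j i)).1) fun i i' =>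
      (π.2 _ _).trans (hf _ i.2 _ i'.2)
  rw [Finset.sum_comm] at h1
  simp only [← map_sum] at h1
  have h2 : ∀ i : A, ∑ π : isoGrp X, Tq (π.1 (j i)).1 = ∑ π : isoGrp X, Tq (π.1 (j i0)).1 :=
    fun i => hX.sum_eq (fun z => Tq z.1) _ _
  simp only [h2, hφ0, Finset.sum_const, Finset.card_univ, nsmul_eq_mul, mul_one] at h1
  exact absurd (by exact_mod_cast h1.symm) (Fintype.card_ne_zero (α := isoGrp X))

lemma specialize {κ : Type} [Finite κ] {a : ℝ} (ha : Transcendental ℚ a) (v : κ → ℝ) {k1 k3 : κ}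
    (hne : v k1 ≠ v k3) : ∃ (t : ℚ) (w : κ → ℚ), 1 < t ∧ w k1 ≠ w k3 ∧ ∀ y1 y2 y3 y4,
      v y2 - v y1 + (v y4 - v y1) = (1 + a) * (v y3 - v y1) →
      w y2 - w y1 + (w y4 - w y1) = (1 + t) * (w y3 - w y1) := by
  let _ : Algebra ℚ[X] ℝ := (Polynomial.aeval a).toRingHom.toAlgebra
  have hinj : Function.Injective (algebraMap ℚ[X] ℝ) := transcendental_iff_injective.mp ha
  have : Module.IsTorsionFree ℚ[X] ℝ := Module.isTorsionFree_iff_algebraMap_injective.mpr hinj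
  let N := Submodule.span ℚ[X] (Set.range v)
  have : Module.Finite ℚ[X] N := Module.Finite.span_of_finite _ (Set.finite_range v)
  let v' : κ → N := fun k => ⟨v k, Submodule.subset_span ⟨k, rfl⟩⟩
  have h0 : v' k3 - v' k1 ≠ 0 := fun h => hne (sub_eq_zero.mp (congrArg Subtype.val h)).symm
  obtain ⟨l, hl⟩ := Module.Projective.exists_dual_ne_zero ℚ[X] h0
  obtain ⟨t, ht, hroot⟩ := (Set.Ioi_infinite (1 : ℚ)).exists_notMem_finite
    (Polynomial.finite_setOfPred_isRoot hl)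
  refine ⟨t, fun k => (l (v' k)).eval t, ht, fun h => hroot ?_, fun y1 y2 y3 y4 h => ?_⟩
  · simp only [Set.mem_ofPred_eq, Polynomial.IsRoot.def, map_sub, Polynomial.eval_sub]
    exact sub_eq_zero.mpr h.symm
  · have e : v' y2 - v' y1 + (v' y4 - v' y1) = (1 + Polynomial.X : ℚ[X]) • (v' y3 - v' y1) := by
      apply Subtype.ext
      have : algebraMap ℚ[X] ℝ (1 + Polynomial.X) = 1 + a := by
        change Polynomial.aeval a (1 + Polynomial.X : ℚ[X]) = 1 + a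
        simp
      simp only [Submodule.coe_add, Submodule.coe_sub, Submodule.coe_smul, Algebra.smul_def, this]
      exact h
    have := congrArg (fun z => (l z).eval t) e
    simpa using this

theorem kite_not_subtransitive {a b : ℝ} (ha : Transcendental ℚ a) {A : Finset (E 2)}
    (h1 : !₂[-1, 0] ∈ A) (h3 : !₂[1, 0] ∈ A) (h2 : !₂[a, b] ∈ A) (h4 : !₂[a, -b] ∈ A) :
    ¬ IsSubtransitive A := by
  classical
  rintro ⟨n, X, hX, _, hB, f, hf, rfl⟩
  let j : A → X := fun i => ⟨f i.1, hB ⟨i.1, i.2, rfl⟩⟩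
  have hrel : ∀ π : isoGrp X, (π.1 (j ⟨_, h2⟩)).1 - (π.1 (j ⟨_, h1⟩)).1 +
      ((π.1 (j ⟨_, h4⟩)).1 - (π.1 (j ⟨_, h1⟩)).1) =
      (1 + a) • ((π.1 (j ⟨_, h3⟩)).1 - (π.1 (j ⟨_, h1⟩)).1) := by
    intro π
    obtain ⟨L, _, hL, -, -⟩ := exists_ext (fun i : A => i.1) (fun i => (π.1 (j i)).1)
      (fun i i' => (π.2 _ _).trans (hf _ i.2 _ i'.2)) ⟨_, h1⟩
    rw [← hL, ← hL, ← hL, ← map_add, ← map_smul]
    congr 1
    ext k
    fin_cases k <;> simp
    ring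
  have hne : (j ⟨_, h1⟩).1 ≠ (j ⟨_, h3⟩).1 := by
    intro e
    have := hf _ h1 _ h3
    rw [show f !₂[-1, 0] = f !₂[1, 0] from e, dist_self, eq_comm, dist_eq_zero] at this
    have := congrArg (fun z : E 2 => z 0) this
    norm_num at this
  obtain ⟨k, hk⟩ : ∃ k, (j ⟨_, h1⟩).1 k ≠ (j ⟨_, h3⟩).1 k := by
    by_contra hcon
    push Not at hcon
    exact hne (by ext k; exact hcon k)
  obtain ⟨t, w, ht, hw, hwr⟩ := specialize ha (fun y : X => y.1 k) hk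
  have hr : ∀ π : isoGrp X, w (π.1 (j ⟨_, h2⟩)) ^ 2 + w (π.1 (j ⟨_, h4⟩)) ^ 2 +
      (t - 1) * w (π.1 (j ⟨_, h1⟩)) ^ 2 - (1 + t) * w (π.1 (j ⟨_, h3⟩)) ^ 2 =
      (w (π.1 (j ⟨_, h2⟩)) - w (π.1 (j ⟨_, h3⟩))) ^ 2 +
      (w (π.1 (j ⟨_, h4⟩)) - w (π.1 (j ⟨_, h3⟩))) ^ 2 +
      (t - 1) * (w (π.1 (j ⟨_, h1⟩)) - w (π.1 (j ⟨_, h3⟩))) ^ 2 := by
    intro π
    have := hwr _ _ _ _ (by simpa using congrArg (fun z : E n => z k) (hrel π))
    linear_combination (2 * w (π.1 (j ⟨_, h3⟩))) * this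
  have hs := Finset.sum_congr rfl fun π (_ : π ∈ Finset.univ) => hr π
  have e : ∀ y : X, ∑ π : isoGrp X, w (π.1 y) ^ 2 = ∑ π : isoGrp X, w (π.1 (j ⟨_, h1⟩)) ^ 2 :=
    fun y => hX.sum_eq (fun z => w z ^ 2) _ _
  rw [Finset.sum_sub_distrib, Finset.sum_add_distrib, Finset.sum_add_distrib, ← Finset.mul_sum,
    ← Finset.mul_sum, e, e (j ⟨_, h4⟩), e (j ⟨_, h3⟩)] at hs
  have ht' : 0 < t - 1 := by linarith
  have hpos : 0 < ∑ π : isoGrp X, ((w (π.1 (j ⟨_, h2⟩)) - w (π.1 (j ⟨_, h3⟩))) ^ 2 +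
      (w (π.1 (j ⟨_, h4⟩)) - w (π.1 (j ⟨_, h3⟩))) ^ 2 +
      (t - 1) * (w (π.1 (j ⟨_, h1⟩)) - w (π.1 (j ⟨_, h3⟩))) ^ 2) := by
    refine Finset.sum_pos' (fun π _ => by positivity) ⟨1, Finset.mem_univ _, ?_⟩
    have : 0 < (w (j ⟨_, h1⟩) - w (j ⟨_, h3⟩)) ^ 2 := by
      have := sub_ne_zero.mpr hw
      positivity
    have := mul_pos ht' this
    simp only [OneMemClass.coe_one, Equiv.Perm.coe_one, id_eq]
    positivity
  rw [← hs] at hpos
  linarith

theorem kite_isRamsey {a b : ℝ} (hab : a ^ 2 + b ^ 2 = 1) (hb : b ≠ 0) {A : Finset (E 2)}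
    (hA : ∀ x ∈ A, x = !₂[-1, 0] ∨ x = !₂[1, 0] ∨ x = !₂[a, b] ∨ x = !₂[a, -b]) :
    IsRamsey A := by
  apply TCR.isRamsey
  let s : ℝ ⊗[ℚ] ℝ := (1 - a ⊗ₜ[ℚ] a) * (b⁻¹ ⊗ₜ[ℚ] b⁻¹)
  have hs : (b ⊗ₜ[ℚ] b) * s = 1 - a ⊗ₜ[ℚ] a := by
    rw [mul_left_comm, Algebra.TensorProduct.tmul_mul_tmul, mul_inv_cancel₀ hb,
      ← Algebra.TensorProduct.one_def, mul_one]
  have hm : LinearMap.mul' ℚ ℝ s = 1 := by
    simp only [s, sub_mul, one_mul, Algebra.TensorProduct.tmul_mul_tmul, map_sub,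
      LinearMap.mul'_apply]
    field_simp
    linarith
  refine ⟨fun α β => if α = β then ![-1, 1, s] α else 0, fun i => ?_, fun α β => ?_⟩
  · simp only [mul_ite, mul_zero, Finset.sum_ite_eq, Finset.mem_univ, if_true,
      Fin.sum_univ_succ, Fin.cons_zero, Fin.cons_succ, pts]
    rcases hA i.1 i.2 with h | h | h | h <;> rw [h] <;>
      simp [← Algebra.TensorProduct.one_def, TensorProduct.neg_tmul, TensorProduct.tmul_neg, hs]
  · fin_cases α <;> fin_cases β <;> simp [hm, Algebra.TensorProduct.one_def]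

theorem exists_transcendental : ∃ a : ℝ, Transcendental ℚ a ∧ a ^ 2 < 1 := by
  have h : Transcendental ℚ (liouvilleNumber 2) := fun h =>
    transcendental_liouvilleNumber (m := 2) le_rfl
      (by simpa using (IsFractionRing.isAlgebraic_iff ℤ ℚ ℝ).mpr h)
  refine ⟨Int.fract (liouvilleNumber 2), fun h' => h ?_, ?_⟩
  · rw [← Int.floor_add_fract (liouvilleNumber 2)]
    exact (isAlgebraic_intCast _).add h'
  · nlinarith [Int.fract_nonneg (liouvilleNumber 2), Int.fract_lt_one (liouvilleNumber 2)]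

theorem exists_ramsey_not_subtransitive :
    ∃ A : Finset (E 2), A.Nonempty ∧ IsRamsey A ∧ ¬ IsSubtransitive A := by
  classical
  obtain ⟨a, ha, ha1⟩ := exists_transcendental
  have hb : 0 < Real.sqrt (1 - a ^ 2) := Real.sqrt_pos.mpr (by linarith)
  refine ⟨{!₂[-1, 0], !₂[1, 0], !₂[a, Real.sqrt (1 - a ^ 2)], !₂[a, -Real.sqrt (1 - a ^ 2)]},
    by simp, kite_isRamsey (a := a) ?_ hb.ne' (by simp),
    kite_not_subtransitive ha (b := Real.sqrt (1 - a ^ 2)) (by simp) (by simp) (by simp)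
      (by simp)⟩
  rw [Real.sq_sqrt (by linarith)]; ring

end Vale.Agent.P058
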