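import Vale.Agent.P058.Ultra
import Vale.Agent.P058.Defs

/-!
# P058, part 8: the tensor condition implies the Ramsey property
-/

namespace Vale.Agent.P058

open Matrix

variable {d : ℕ}

/-- The coordinates of the points of a finite set, as an indexed family. -/
def pts (A : Finset (E d)) : A → Fin d → ℝ := fun i α => i.1 α

lemma pts_injective (A : Finset (E d)) : Function.Injective (pts A) := by
  intro i j h
  apply Subtype.ext
  ext α
  exact congrFun h α

/-- A list of reals as a point of `ℝ^(n+1)`. -/
def emb (n : ℕ) (w : List ℝ) : E (n + 1) := WithLp.toLp 2 fun k => w.getD k 0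

lemma quad_sum (L : List (W d)) (v : Fin d → ℝ) :
    (L.map fun l => (∑ α, l.2 α * v α) ^ 2).sum = v ⬝ᵥ ((L.map fun l => sq l.2).sum *ᵥ v) := by
  induction L with
  | nil => simp
  | cons l L ih =>
    rw [List.map_cons, List.sum_cons, ih, List.map_cons, List.sum_cons, add_mulVec,
      dotProduct_add]
    congr 1
    simp only [sq, dotProduct, mulVec, vecMulVec_apply, pow_two, Finset.mul_sum, Finset.sum_mul]
    refine Finset.sum_congr rfl fun α _ => Finset.sum_congr rfl fun β _ => by ring

lemma dist_emb {κ : Type} (L : List κ) (f g : κ → ℝ) :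
    dist (emb L.length (L.map f)) (emb L.length (L.map g)) ^ 2 =
      (L.map fun l => (f l - g l) ^ 2).sum := by
  rw [EuclideanSpace.dist_sq_eq, Fin.sum_univ_castSucc, ← Fin.sum_univ_fun_getElem]
  simp [emb, Real.dist_eq]

theorem TCR.isRamsey {A : Finset (E d)} (h : TCR (pts A)) : IsRamsey A := by
  intro r _
  by_contra hcon
  push Not at hcon
  choose c hc using fun n : ℕ => hcon (n + 1) (by omega)
  obtain ⟨L, hL, k, hk⟩ := h.mono (pts_injective A) fun w => c w.length (emb w.length w)
  let f : E d → E (L.length + 1) :=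
    fun z => emb L.length (L.map fun l => l.1 + ∑ α, l.2 α * z α)
  have hf : ∀ x y, dist (f x) (f y) = dist x y := by
    intro x y
    rw [← sq_eq_sq₀ dist_nonneg dist_nonneg, dist_emb, EuclideanSpace.dist_sq_eq]
    have := quad_sum L (fun α => x α - y α)
    rw [hL, one_mulVec] at this
    simp only [Real.dist_eq, sq_abs]
    simp only [dotProduct, ← pow_two] at this
    rw [← this]
    congr 1
    refine List.map_congr_left fun l _ => ?_
    congr 1
    simp only [mul_sub, Finset.sum_sub_distrib]; ring
  obtain ⟨_, ⟨x, hx, rfl⟩, hne⟩ := hc L.length _ ⟨f, fun x _ y _ => hf x y, rfl⟩ k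
  apply hne
  have := hk ⟨x, hx⟩
  rw [List.length_map] at this
  exact this

end Vale.Agent.P058
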