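import Vale.Agent.P058.Ring

/-!
# P058, part 5: from the tensor condition to the commutative stage
-/

namespace Vale.Agent.P058

open Matrix
open scoped TensorProduct

variable {ι : Type} {d : ℕ}

/-- The tensor condition over the reals, for an indexed family of points. -/
def TCR (a : ι → Fin d → ℝ) : Prop :=
  ∃ P : Fin (d + 1) → Fin (d + 1) → ℝ ⊗[ℚ] ℝ,
    (∀ i, ∑ α, ∑ β, ((Fin.cons 1 (a i) : Fin (d + 1) → ℝ) α ⊗ₜ[ℚ]
      (Fin.cons 1 (a i) : Fin (d + 1) → ℝ) β) * P α β = 0) ∧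
    ∀ α β : Fin d, LinearMap.mul' ℚ ℝ (P α.succ β.succ) = if α = β then 1 else 0

section Quadratic

variable {M : Type} [AddCommGroup M] {a : ι → Fin d → ℝ} {g : ℝ → M}

/-- Tuples that are differences of two cheap elements of the same degree. -/
def Cheap (a : ι → Fin d → ℝ) (g : ℝ → M) : AddSubgroup (ι → M) where
  carrier := {v | ∀ ε : ℝ, 0 < ε → ∃ (D : Deg d) (p q : ι → M), GamA a g D p ∧ GamA a g D q ∧
    D.trace ≤ ε ∧ p - q = v}
  zero_mem' := fun ε hε => ⟨0, 0, 0, GamA.zero, GamA.zero, by simpa using hε.le, by simp⟩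
  add_mem' := by
    intro v w hv hw ε hε
    obtain ⟨D, p, q, hp, hq, hD, rfl⟩ := hv (ε / 2) (by positivity)
    obtain ⟨D', p', q', hp', hq', hD', rfl⟩ := hw (ε / 2) (by positivity)
    refine ⟨_, _, _, hp.add hp', hq.add hq', ?_, by abel⟩
    rw [Matrix.trace_add]; linarith
  neg_mem' := by
    intro v hv ε hε
    obtain ⟨D, p, q, hp, hq, hD, rfl⟩ := hv ε hε
    exact ⟨_, _, _, hq, hp, hD, by abel⟩

lemma bal_nat (B : ℝ →+ ℝ →+ M) (n : ℕ) (s t : ℝ) : B (n * s) t = B s (n * t) := by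
  rw [← nsmul_eq_mul, ← nsmul_eq_mul, map_nsmul, map_nsmul]; rfl

lemma bal_int (B : ℝ →+ ℝ →+ M) (n : ℤ) (s t : ℝ) : B (n * s) t = B s (n * t) := by
  rw [← zsmul_eq_mul, ← zsmul_eq_mul, map_zsmul, map_zsmul]; rfl

lemma bal_rat (B : ℝ →+ ℝ →+ M) (r : ℚ) (s t : ℝ) : B (r * s) t = B s (r * t) := by
  have hd : (r.den : ℝ) ≠ 0 := by exact_mod_cast r.den_nz
  have e1 : t = (r.den : ℝ) * (t / r.den) := by field_simp
  have e2 : (r.den : ℝ) * ((r : ℝ) * s) = (r.num : ℝ) * s := by
    rw [Rat.cast_def]; field_simp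
  have e3 : (r.num : ℝ) * (t / r.den) = (r : ℝ) * t := by
    rw [Rat.cast_def]; field_simp
  rw [e1, ← bal_nat, e2, bal_int, e3, ← e1]

lemma trace_mix (y y' : Fin d → ℝ) (s t : ℝ) :
    (sq (s • y + t • y') + (sq (t • y) + sq (s • y'))).trace ≤
      3 * (s ^ 2 + t ^ 2) * ((sq y).trace + (sq y').trace) := by
  simp only [Matrix.trace_add, trace_sq, Pi.add_apply, Pi.smul_apply, smul_eq_mul,
    ← Finset.sum_add_distrib, Finset.mul_sum]
  refine Finset.sum_le_sum fun α _ => ?_
  nlinarith [sq_nonneg (s * y α - t * y' α), sq_nonneg (s * y α), sq_nonneg (t * y' α),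
    sq_nonneg (t * y α), sq_nonneg (s * y' α)]

lemma exists_nat_small (C ε : ℝ) (hε : 0 < ε) :
    ∃ n : ℕ, (0 : ℝ) < n ∧ C * (1 / (n : ℝ)) ^ 2 ≤ ε := by
  obtain ⟨n, hn⟩ := exists_nat_gt (max (C / ε) 1)
  have h1 : (1 : ℝ) < n := lt_of_le_of_lt (le_max_right _ _) hn
  have h2 : C / ε < n := lt_of_le_of_lt (le_max_left _ _) hn
  refine ⟨n, by linarith, ?_⟩
  rw [div_lt_iff₀ hε] at h2
  rw [one_div, inv_pow, ← div_eq_mul_inv, div_le_iff₀ (by positivity)]
  nlinarith [mul_pos hε (show (0 : ℝ) < n by linarith)]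

variable (B : ℝ →+ ℝ →+ M) (hB : ∀ s t, B s t = g (s + t) + g 0 - (g s + g t))
include hB

lemma cheap_const (c : ℝ) (l : W d) : (fun i => B c (ev a i l)) ∈ Cheap a g := by
  intro ε hε
  obtain ⟨n, hn, hC⟩ := exists_nat_small (sq l.2).trace ε hε
  refine ⟨sq ((1 / (n : ℝ)) • l).2, _, _,
    ((GamA.letter (((n : ℝ) * c, 0) + (1 / (n : ℝ)) • l)).add (GamA.diag (g 0))).of_eq
      (by simp) rfl,
    ((GamA.diag (g (n * c))).add (GamA.letter ((1 / (n : ℝ)) • l))).of_eq (zero_add _) rfl,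
    ?_, ?_⟩
  · rw [Prod.smul_snd, sq_smul, Matrix.trace_smul, smul_eq_mul]; linarith
  · ext i
    simp only [Pi.sub_apply, Pi.add_apply, ev_add, ev_const, ← hB, ev_smul, bal_nat]
    congr 1; field_simp

lemma cheap_swap (r : ℝ) (l l' : W d) :
    (fun i => B (r * ev a i l) (ev a i l') - B (ev a i l) (r * ev a i l')) ∈ Cheap a g := by
  intro ε hε
  obtain ⟨n, hn, hC⟩ := exists_nat_small (6 * ((sq l.2).trace + (sq l'.2).trace)) ε hε
  obtain ⟨q, hq⟩ := exists_rat_near r (show (0 : ℝ) < (1 / (n : ℝ)) ^ 2 by positivity)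
  set s : ℝ := n * (r - q) with hs
  set t : ℝ := 1 / (n : ℝ) with ht
  have hs2 : s ^ 2 ≤ t ^ 2 := by
    apply sq_le_sq.mpr
    rw [hs, abs_mul, abs_of_pos hn, abs_of_pos (by positivity : 0 < t)]
    have : (n : ℝ) * t ^ 2 = t := by rw [ht]; field_simp
    nlinarith
  refine ⟨sq (s • l.2 + t • l'.2) + (sq (t • l.2) + sq (s • l'.2)), _, _,
    (((GamA.letter (s • l + t • l')).add (GamA.diag (g 0))).add
      ((GamA.letter (t • l)).add (GamA.letter (s • l')))).of_eq (by simp) rfl,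
    (((GamA.letter (s • l)).add (GamA.letter (t • l'))).add
      ((GamA.letter (t • l + s • l')).add (GamA.diag (g 0)))).of_eq ?_ rfl, ?_, ?_⟩
  · ext α β
    simp [sq, vecMulVec_apply]; ring
  · refine (trace_mix _ _ _ _).trans (le_trans ?_ hC)
    have := add_nonneg (trace_sq_nonneg l.2) (trace_sq_nonneg l'.2)
    nlinarith
  · ext i
    have e1 : B (s * ev a i l) (t * ev a i l') = B ((r - q) * ev a i l) (ev a i l') := by
      rw [hs, mul_assoc, bal_nat]; congr 1; rw [ht]; field_simp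
    have e2 : B (t * ev a i l) (s * ev a i l') = B (ev a i l) ((r - q) * ev a i l') := by
      rw [hs, mul_assoc, ← bal_nat]; congr 2; rw [ht]; field_simp
    have e3 : B (r * ev a i l) (ev a i l') - B (ev a i l) (r * ev a i l') =
        B (s * ev a i l) (t * ev a i l') - B (t * ev a i l) (s * ev a i l') := by
      rw [e1, e2, sub_mul, sub_mul, map_sub, map_sub, AddMonoidHom.sub_apply, bal_rat]; abel
    simp only [Pi.sub_apply, Pi.add_apply, ev_add, ev_smul]
    rw [e3, hB, hB]; abel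

theorem TCR.quadratic (h : TCR a) (ε : ℝ) (hε : 0 < ε) :
    ∃ (D : Deg d) (u : ℝ) (p : ι → M), 0 < u ∧ GamA a g (D + u • 1) p ∧ GamA a g D p ∧
      D.trace ≤ ε * u := by
  obtain ⟨P, hP, hm⟩ := h
  have hsymm : ∀ s t, B s t = B t s := fun s t => by rw [hB, hB, add_comm s t, add_comm (g s)]
  let Bt : ℝ ⊗[ℚ] ℝ →+ M := TensorProduct.liftAddHom B fun r s t => by
    rw [Rat.smul_def, Rat.smul_def, bal_rat]
  have hBt : ∀ s t, Bt (s ⊗ₜ t) = B s t := fun _ _ => rfl
  let p : ι → Fin (d + 1) → ℝ := fun i => Fin.cons 1 (a i)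
  let F : Fin (d + 1) → Fin (d + 1) → ℝ ⊗[ℚ] ℝ → ι → M :=
    fun α β τ i => Bt ((p i α ⊗ₜ[ℚ] p i β) * τ)
  have hF0 : ∀ α β, F α β 0 = 0 := fun α β => by ext i; simp [F]
  have hFadd : ∀ α β τ τ', F α β (τ + τ') = F α β τ + F α β τ' := fun α β τ τ' => by
    ext i; simp [F, mul_add]
  have hL : ∀ (β : Fin (d + 1)) (t : ℝ), ∃ l : W d, ∀ i, ev a i l = p i β * t := by
    intro β t
    refine Fin.cases ⟨(t, 0), fun i => ?_⟩ (fun β' => ⟨(0, Pi.single β' t), fun i => ?_⟩) β
    · simp [p, ev_const]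
    · simp [p, ev_single, mul_comm]
  have h0 : ∀ β τ, F 0 β τ ∈ Cheap a g := by
    intro β τ
    induction τ using TensorProduct.induction_on with
    | zero => rw [hF0]; exact zero_mem _
    | add τ τ' h1 h2 => rw [hFadd]; exact add_mem h1 h2
    | tmul s t =>
      obtain ⟨l, hl⟩ := hL β t
      convert cheap_const B hB (a := a) s l using 1
      ext i
      simp [F, p, hBt, hl]
  have h0' : ∀ α τ, F α 0 τ ∈ Cheap a g := by
    intro α τ
    induction τ using TensorProduct.induction_on with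
    | zero => rw [hF0]; exact zero_mem _
    | add τ τ' h1 h2 => rw [hFadd]; exact add_mem h1 h2
    | tmul s t =>
      obtain ⟨l, hl⟩ := hL α s
      convert cheap_const B hB (a := a) t l using 1
      ext i
      rw [hsymm]
      simp [F, p, hBt, hl]
  have h1 : ∀ (α β : Fin d) (τ : ℝ ⊗[ℚ] ℝ),
      (fun i => B (LinearMap.mul' ℚ ℝ τ * a i α) (a i β)) - F α.succ β.succ τ ∈ Cheap a g := by
    intro α β τ
    induction τ using TensorProduct.induction_on with
    | zero =>
      convert zero_mem (Cheap a g) using 1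
      ext i; simp [hF0]
    | add τ τ' h1 h2 =>
      convert add_mem h1 h2 using 1
      ext i; simp only [hFadd, map_add, add_mul, Pi.sub_apply, Pi.add_apply,
        AddMonoidHom.add_apply]
      abel
    | tmul s t =>
      convert cheap_swap B hB (a := a) t (0, Pi.single α s) (0, Pi.single β 1) using 1
      ext i
      simp only [F, p, Pi.sub_apply, LinearMap.mul'_apply, Fin.cons_succ,
        Algebra.TensorProduct.tmul_mul_tmul, hBt, ev_single, one_mul]
      congr 2
      · congr 1; ring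
      · congr 1; ring
      · ring
  have hsum : ∑ α, ∑ β, F α β (P α β) = 0 := by
    ext i
    simp only [F, Finset.sum_apply, ← map_sum, Pi.zero_apply]
    rw [hP i, map_zero]
  have hmain : (fun i => ∑ α, B (a i α) (a i α)) ∈ Cheap a g := by
    have e : (fun i => ∑ α, B (a i α) (a i α)) =
        ∑ α : Fin d, ∑ β : Fin d, ((fun i => B (LinearMap.mul' ℚ ℝ (P α.succ β.succ) * a i α)
          (a i β)) - F α.succ β.succ (P α.succ β.succ))
        - (∑ β, F 0 β (P 0 β) + ∑ α : Fin d, F α.succ 0 (P α.succ 0)) := by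
      rw [Fin.sum_univ_succ] at hsum
      simp only [Fin.sum_univ_succ (f := fun β => F (Fin.succ _) β _), Finset.sum_add_distrib]
        at hsum
      simp only [Finset.sum_sub_distrib]
      rw [sub_sub, add_comm (∑ α : Fin d, ∑ β : Fin d, F α.succ β.succ _), add_assoc, hsum,
        sub_zero]
      ext i
      simp only [hm, Finset.sum_apply]
      refine Finset.sum_congr rfl fun α _ => ?_
      rw [Finset.sum_eq_single α]
      · simp
      · intro β _ hβ; simp [Ne.symm hβ]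
      · simp
    rw [e]
    exact sub_mem (sum_mem fun α _ => sum_mem fun β _ => h1 α β _)
      (add_mem (sum_mem fun β _ => h0 β _) (sum_mem fun α _ => h0' _ _))
  obtain ⟨D, p1, q1, hp1, hq1, hD, e⟩ := hmain ε hε
  have hA := GamA.sum (a := a) (g := g) Finset.univ _ _ fun (α : Fin d) _ =>
    (GamA.letter (a := a) (g := g) (0, Pi.single α 1)).add (GamA.letter (-(0, Pi.single α 1)))
  refine ⟨D, 2, _, by norm_num, (hq1.add hA).of_eq ?_ rfl,
    (hp1.add (GamA.diag (∑ _α : Fin d, (g 0 + g 0)))).of_eq (add_zero _) ?_, by linarith⟩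
  · simp only [Prod.snd_neg, sq_neg, Finset.sum_add_distrib, sum_sq_single]
    congr 1; rw [one_pow, one_smul, two_smul]
  · ext i
    have e' : p1 i = q1 i + ∑ α, B (a i α) (a i α) := by
      rw [← congrFun e i]; simp
    simp only [Pi.add_apply, e', Finset.sum_apply, ev_neg, ev_single, one_mul, add_assoc,
      ← Finset.sum_add_distrib]
    congr 1
    refine Finset.sum_congr rfl fun α _ => ?_
    have := hB (a i α) (-a i α)
    rw [map_neg, add_neg_cancel] at this
    rw [← neg_neg (B (a i α) (a i α)), this]; abel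

end Quadratic

variable {R : Type} [CommRing R] {x : ℝ → R} {a : ι → Fin d → ℝ}

theorem TCR.prA (hx : ExpRing R x) (h : TCR a) : PrA a x (aug x ^ 3) := by
  intro ε hε
  let π : R →+* R ⧸ aug x ^ 3 := Ideal.Quotient.mk _
  have h3 : ∀ r s t : ℝ, π ((x r - 1) * (x s - 1) * (x t - 1)) = 0 := by
    intro r s t
    rw [Ideal.Quotient.eq_zero_iff_mem, pow_succ, pow_two]
    exact Ideal.mul_mem_mul (Ideal.mul_mem_mul (sub_one_mem_aug _) (sub_one_mem_aug _))
      (sub_one_mem_aug _)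
  let B : ℝ →+ ℝ →+ R ⧸ aug x ^ 3 := AddMonoidHom.mk'
    (fun s => AddMonoidHom.mk' (fun t => π ((x s - 1) * (x t - 1))) (fun t t' => by
      have : (x s - 1) * (x (t + t') - 1) = (x s - 1) * (x t - 1) + (x s - 1) * (x t' - 1) +
        (x s - 1) * (x t - 1) * (x t' - 1) := by rw [hx.add]; ring
      rw [this, map_add, map_add, h3, add_zero]))
    (fun s s' => by
      ext t
      have : (x (s + s') - 1) * (x t - 1) = (x s - 1) * (x t - 1) + (x s' - 1) * (x t - 1) +
        (x s - 1) * (x s' - 1) * (x t - 1) := by rw [hx.add]; ring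
      simp only [AddMonoidHom.mk'_apply, AddMonoidHom.add_apply]
      rw [this, map_add, map_add, h3, add_zero])
  obtain ⟨D, u, p, hu, h1, h2, hD⟩ := TCR.quadratic (g := fun t => π.toAddMonoidHom (x t)) B
    (fun s t => by
      simp only [B, AddMonoidHom.mk'_apply, RingHom.toAddMonoidHom_eq_coe,
        AddMonoidHom.coe_coe, ← map_add, ← map_sub]
      congr 1; rw [hx.add, hx.zero]; ring) h ε hε
  obtain ⟨p1, hp1, e1⟩ := h1.lift π.toAddMonoidHom Ideal.Quotient.mk_surjective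
  obtain ⟨p2, hp2, e2⟩ := h2.lift π.toAddMonoidHom Ideal.Quotient.mk_surjective
  exact ⟨D, u, p1, p2, hu, hp1, hp2, hD, fun i => Ideal.Quotient.eq.mp ((e1 i).trans (e2 i).symm)⟩

end Vale.Agent.P058
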