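import Vale.Agent.P058.Free

/-!
# P058, part 7: minimal idempotent ultrafilters and the Hales–Jewett theorem
-/

namespace Vale.Agent.P058

open Matrix Filter

lemma exists_min_idem {M : Type} [Nonempty M] [Semigroup M] [TopologicalSpace M]
    [CompactSpace M] [T2Space M] (hc : ∀ r : M, Continuous (· * r)) :
    ∃ e : M, e * e = e ∧ ∀ x, ∃ y, y * (e * x * e) = e := by
  let S : Set (Set M) := {N | IsClosed N ∧ N.Nonempty ∧ ∀ m, ∀ m' ∈ N, m * m' ∈ N}
  obtain ⟨N, hN⟩ : ∃ N', Minimal (· ∈ S) N' := by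
    refine zorn_superset _ fun c hcs hc => ?_
    refine ⟨⋂₀ c, ⟨isClosed_sInter fun t ht => (hcs ht).1, ?_, fun m m' hm' => ?_⟩,
      fun s hs => Set.sInter_subset_of_mem hs⟩
    · obtain rfl | hcnemp := c.eq_empty_or_nonempty
      · rw [Set.sInter_empty]
        apply Set.univ_nonempty
      have := hcnemp.coe_sort
      rw [Set.sInter_eq_iInter]
      exact IsCompact.nonempty_iInter_of_directed_nonempty_isCompact_isClosed
        ((↑) : c → Set M) (DirectedOn.directed_val (IsChain.directedOn hc.symm))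
        (fun i => (hcs i.prop).2.1) (fun i => (hcs i.prop).1.isCompact) (fun i => (hcs i.prop).1)
    · rw [Set.mem_sInter]
      exact fun t ht => (hcs ht).2.2 m m' (Set.mem_sInter.mp hm' t ht)
  obtain ⟨hcl, hne, hmul⟩ := hN.prop
  obtain ⟨e, he, hee⟩ := exists_idempotent_in_compact_subsemigroup hc N hne hcl.isCompact
    (fun x _ y hy => hmul x y hy)
  refine ⟨e, hee, fun x => ?_⟩
  have h1 : Set.range (· * (e * x * e)) = N := by
    apply hN.eq_of_subset
    · refine ⟨(isCompact_range (hc _)).isClosed, Set.range_nonempty _, ?_⟩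
      rintro m _ ⟨y, rfl⟩
      exact ⟨m * y, mul_assoc _ _ _⟩
    · rintro _ ⟨y, rfl⟩
      exact hmul _ _ (hmul _ _ he)
  rw [← h1] at he
  exact he

lemma exists_group {M : Type} [Nonempty M] [Semigroup M] [TopologicalSpace M]
    [CompactSpace M] [T2Space M] (hc : ∀ r : M, Continuous (· * r)) :
    ∃ (G : Type) (_ : Group G) (j : G → M), (∀ x y, j (x * y) = j x * j y) ∧
      ∀ p, ∃ x, j x = j 1 * p * j 1 := by
  obtain ⟨e, hee, hinv⟩ := exists_min_idem hc
  choose inv hinv using hinv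
  let G := {p : M // e * p = p ∧ p * e = p}
  have hs : ∀ p, e * (e * p * e) = e * p * e ∧ e * p * e * e = e * p * e := fun p =>
    ⟨by rw [← mul_assoc, ← mul_assoc, hee], by rw [mul_assoc, hee]⟩
  let _ : Mul G := ⟨fun p q => ⟨p.1 * q.1, by rw [← mul_assoc, p.2.1], by rw [mul_assoc, q.2.2]⟩⟩
  let _ : One G := ⟨⟨e, hee, hee⟩⟩
  let _ : Inv G := ⟨fun p => ⟨e * inv p.1 * e, hs _⟩⟩
  refine ⟨G, Group.ofLeftAxioms (fun p q r => Subtype.ext (mul_assoc _ _ _))
    (fun p => Subtype.ext p.2.1) (fun p => Subtype.ext ?_), Subtype.val, fun _ _ => rfl,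
    fun p => ⟨⟨_, hs p⟩, rfl⟩⟩
  have := hinv p.1
  rw [p.2.1, p.2.2] at this
  change e * inv p.1 * e * p.1 = e
  rw [mul_assoc, p.2.1, mul_assoc, this, hee]

attribute [local instance] Ultrafilter.mul Ultrafilter.semigroup

variable {ι : Type} {d : ℕ} {a : ι → Fin d → ℝ}

/-- Tuples of ultrafilters that are limits of configurations of degree `D`. -/
def Rel (a : ι → Fin d → ℝ) (D : Deg d) (σ : ι → Ultrafilter (FreeMonoid ℝ)) : Prop :=
  ∀ P : ι → FreeMonoid ℝ → Prop, (∀ i, ∀ᶠ w in σ i, P i w) →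
    ∃ L : List (W d), (L.map fun l => sq l.2).sum = D ∧
      ∀ i, P i (FreeMonoid.ofList (L.map (ev a i)))

lemma Rel.mul {D D' : Deg d} {σ σ' : ι → Ultrafilter (FreeMonoid ℝ)} (h : Rel a D σ)
    (h' : Rel a D' σ') : Rel a (D + D') (fun i => σ i * σ' i) := by
  intro P hP
  obtain ⟨L, hL, hLP⟩ := h (fun i m => ∀ᶠ m' in σ' i, P i (m * m'))
    (fun i => (Ultrafilter.eventually_mul _ _ _).mp (hP i))
  obtain ⟨L', hL', hLP'⟩ := h' _ hLP
  refine ⟨L ++ L', by simp [hL, hL'], fun i => ?_⟩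
  rw [List.map_append, FreeMonoid.ofList_append]
  exact hLP' i

lemma Rel.diag [Finite ι] (p : Ultrafilter (FreeMonoid ℝ)) : Rel a 0 (fun _ => p) := by
  intro P hP
  obtain ⟨w, hw⟩ := (eventually_all.mpr hP).exists
  refine ⟨(FreeMonoid.toList w).map fun c => (c, 0), ?_, fun i => ?_⟩
  · simp [Function.comp_def, sq_zero]
  · simpa [Function.comp_def, ev_const] using hw i

lemma Rel.letter (l : W d) : Rel a (sq l.2) (fun i => pure (FreeMonoid.of (ev a i l))) := by
  intro P hP
  exact ⟨[l], by simp, fun i => by simpa using hP i⟩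

lemma line_prod {G : Type} [Group G] {g : ℝ → G} {κ : Type} (N : ℕ) (b : ℝ) (β : ι → G)
    (hβ : ∀ m : ℕ, 1 ≤ m → m ≤ N + 1 → Gam a g (((m : ℝ) * b) • 1) β) (f : κ → Option ι)
    (L : List κ) (m : ℕ) (h1 : L.countP (fun k => (f k).isNone) ≤ m)
    (h2 : m ≤ L.countP (fun k => (f k).isNone) * (N + 1)) :
    Gam a g (((m : ℝ) * b) • 1) (fun i => (L.map fun k => β ((f k).getD i)).prod) := by
  induction L generalizing m with
  | nil =>
    have : m = 0 := by simpa using h2
    subst this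
    simpa using Gam.diag (a := a) (g := g) 1
  | cons k L ih =>
    rcases hk : f k with _ | j
    · simp only [List.countP_cons, hk, Option.isNone_none, if_true] at h1 h2
      set c := L.countP (fun k => (f k).isNone)
      obtain ⟨m1, m2, e, h3, h4, h5, h6⟩ : ∃ m1 m2, m = m1 + m2 ∧ 1 ≤ m1 ∧ m1 ≤ N + 1 ∧ c ≤ m2 ∧
          m2 ≤ c * (N + 1) := by
        by_cases h : m - 1 ≤ c * (N + 1)
        · exact ⟨1, m - 1, by omega, le_rfl, by omega, by omega, h⟩
        · rw [add_mul, one_mul] at h2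
          exact ⟨m - c * (N + 1), c * (N + 1), by omega, by omega, by omega,
            Nat.le_mul_of_pos_right _ (by omega), le_rfl⟩
      refine ((hβ m1 h3 h4).mul (ih m2 h5 h6)).of_eq ?_ ?_
      · rw [e, Nat.cast_add, add_mul, add_smul]
      · ext i; simp [hk]
    · simp only [List.countP_cons, hk, Option.isNone_some, Bool.false_eq_true, if_false,
        add_zero] at h1 h2
      refine ((Gam.diag (β j)).mul (ih m h1 h2)).of_eq (zero_add _) ?_
      ext i; simp [hk]

/-- The combinatorial form of the sufficiency of the tensor condition. -/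
theorem TCR.mono [Fintype ι] (ha : Function.Injective a) (h : TCR a) {κ : Type} [Finite κ]
    (C : List ℝ → κ) :
    ∃ L : List (W d), (L.map fun l => sq l.2).sum = 1 ∧ ∃ k, ∀ i, C (L.map (ev a i)) = k := by
  obtain ⟨η, _, hη⟩ := Combinatorics.Line.exists_mono_in_high_dimension ι κ
  obtain ⟨b, hb, hflex⟩ := h.flexible ha (Fintype.card η)
  obtain ⟨G, _, j, hj, hj1⟩ := exists_group (M := Ultrafilter (FreeMonoid ℝ))
    Ultrafilter.continuous_mul_left
  choose g0 hg0 using fun t : ℝ => hj1 (pure (FreeMonoid.of t))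
  set s : ℝ := Real.sqrt (1 / (((Fintype.card η + 1 : ℕ) : ℝ) * b)) with hs
  have hs2 : s ^ 2 * (((Fintype.card η + 1 : ℕ) : ℝ) * b) = 1 := by
    rw [hs, Real.sq_sqrt (by positivity)]; field_simp
  let g : ℝ → G := fun t => g0 (s * t) * (g0 0)⁻¹
  have hrel : ∀ {D : Deg d} {σ : ι → G}, Gam a g D σ → Rel a (s ^ 2 • D) (fun i => j (σ i)) := by
    intro D σ hσ
    induction hσ with
    | diag x => simpa using Rel.diag (j x)
    | letter l =>
      have := (((Rel.diag (a := a) (j 1)).mul (Rel.letter (s • l))).mul (Rel.diag (j 1))).mul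
        (Rel.diag (j (g0 0)⁻¹))
      simpa only [g, hj, hg0, ev_smul, zero_add, add_zero, Prod.smul_snd, sq_smul] using this
    | mul _ _ ih1 ih2 => simpa only [smul_add, Pi.mul_apply, hj] using ih1.mul ih2
  obtain ⟨β, hβ⟩ := hflex G g (by simp [g])
  have hcol : ∀ p : Ultrafilter (FreeMonoid ℝ), ∃ k, ∀ᶠ w in p, C (FreeMonoid.toList w) = k :=
    fun p => Ultrafilter.eventually_exists_iff.mp (Eventually.of_forall fun w => ⟨_, rfl⟩)
  choose col hcol using hcol
  obtain ⟨l, k, hl⟩ := hη fun w => col (j ((Finset.univ : Finset η).toList.map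
    fun k => β (w k)).prod)
  have hc1 : (Finset.univ : Finset η).toList.countP (fun k => (l.idxFun k).isNone) ≤
      Fintype.card η + 1 := by
    refine List.countP_le_length.trans ?_
    simp
  have hc2 : 0 < (Finset.univ : Finset η).toList.countP (fun k => (l.idxFun k).isNone) := by
    obtain ⟨k, hk⟩ := l.proper
    exact List.countP_pos_iff.mpr ⟨k, by simp, by simp [hk]⟩
  have := hrel (line_prod _ b β hβ l.idxFun _ (Fintype.card η + 1) hc1
    (Nat.le_mul_of_pos_left _ hc2))
  rw [smul_smul, hs2, one_smul] at this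
  obtain ⟨L, hL, hP⟩ := this (fun _ w => C (FreeMonoid.toList w) = k) fun i => by
    rw [← hl i]; exact hcol _
  exact ⟨L, hL, k, hP⟩

end Vale.Agent.P058
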